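import Crest.Agent.N255.Cs.Cap0

-- ▼ part N255/Cs/Cap
section

/-!
# Row 255 (helper31): torus capping on chains
-/

set_option autoImplicit false
open Finset

noncomputable section

namespace Crest.Agent.N255.Cs

open Tw Tp

variable {X : Type} [TopologicalSpace X] {K : Type} [CommRing K]

theorem z_add {P : Sb X} {α : Co ℤ 1 X} (h : α ∈ P.Z ℤ ℤ 1) {σ : Sx 2 X} (hσ : σ ∈ P.S 2) :
    α (e2 σ 0 2) = α (e2 σ 0 1) + α (e2 σ 1 2) := by
  have := h σ hσ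
  rw [cob_d1, d1] at this
  linarith

theorem ev_d1 {A : Type} [AddCommGroup A] [Module K A] (ψ : Co A 1 X) {t : Ch K 2 X}
    (h : bd K t = 0) : ev K (fun σ => ψ (e2 σ 1 2) - ψ (e2 σ 0 2) + ψ (e2 σ 0 1)) t = 0 := by
  have := ev_bd ψ t
  rw [h, map_zero] at this
  rw [this]
  exact congrArg (fun φ => ev K φ t) (funext fun σ => (cob_d1 K ψ σ).symm)

/-- the pairing of two integral cochains on a two-chain -/
def pz (α β : Co ℤ 1 X) : Ch K 2 X →ₗ[K] K :=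
  ev K fun σ => ((α (e2 σ 0 1) * β (e2 σ 1 2) : ℤ) : K)

theorem ev_pz {A : Type} [AddCommGroup A] [Module K A] (α β : Co ℤ 1 X) (t : Ch K 2 X) (x : A) :
    ev K (fun σ => (α (e2 σ 0 1) * β (e2 σ 1 2)) • x) t = pz α β t • x := by
  rw [pz, show ev K _ t • x = _ from map_ev (LinearMap.toSpanSingleton K A x) _ t]
  simp only [LinearMap.toSpanSingleton_apply, Int.cast_smul_eq_zsmul]

/-- a two-cycle with two integral cocycles -/
structure To (K X : Type) [CommRing K] [TopologicalSpace X] where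
  P : Sb X
  t : Ch K 2 X
  al : Co ℤ 1 X
  be : Co ℤ 1 X
  ht : t ∈ P.ch K 2
  cy : bd K t = 0
  ha : al ∈ P.Z ℤ ℤ 1
  hb : be ∈ P.Z ℤ ℤ 1

variable {p : ℕ} [hpp : Fact p.Prime] {O : Type} [CommRing O] [Algebra K O]
  {G : Gr (Gm p) K O} {m I J H Na Nb E : Ideal O}

theorem U_mono (hI : G.Id I) (hJ : G.Id J) (h : I ≤ J) {a : (Tw G)ˣ} (ha : a ∈ U hI) : a ∈ U hJ :=
  h ha

theorem U_sub (hI : G.Id I) {a b : (Tw G)ˣ} (ha : a ∈ U hI) (hb : b ∈ U hI) :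
    In I ((a : Tw G) - (b : Tw G)) := by
  simpa only [sub_sub_sub_cancel_right] using In.sub ha hb

theorem zpow_lin' (hm : G.Id m) (hI : G.Id I) {a' a : (Tw G)ˣ} (h : In I ((a' : Tw G) - (a : Tw G)))
    (ha : a ∈ U hm) (ha' : a' ∈ U hm) (n : ℤ) : In (m * I) (((a' ^ n : (Tw G)ˣ) : Tw G) -
      ((a ^ n : (Tw G)ˣ) : Tw G) - n • ((a' : Tw G) - (a : Tw G))) := by
  refine In.mono (zpow_lin (hI.inf hm) hm ⟨h, U_sub hm ha' ha⟩ ha n) ?_
  rw [mul_comm]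
  exact Ideal.mul_mono (sup_le le_rfl inf_le_right) inf_le_left

theorem zinv_sub (hH : G.Id H) {b l : (Tw G)ˣ} (h : In H ((b : Tw G) - (l : Tw G))) (n : ℤ) :
    In H ((((b ^ n)⁻¹ : (Tw G)ˣ) : Tw G) - (((l ^ n)⁻¹ : (Tw G)ˣ) : Tw G)) := by
  simpa only [zpow_neg] using zpow_sub hH h (-n)

theorem mul_sub_in (hH : G.Id H) {x x' y y' : Tw G} (h : In H (x' - x)) (h' : In H (y' - y)) :
    In H (x' * y' - x * y) :=
  In.eq (In.add (mem_right hH y' h) (mem_left hH x h')) (by noncomm_ring)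

namespace To

variable (T : To K X)

/-- the intersection number -/
def s : K := pz T.al T.be T.t

theorem ba : pz T.be T.al T.t = -T.s := by
  rw [eq_neg_iff_add_eq_zero, s, pz, pz, ← ev_add, ← neg_eq_zero, ← ev_neg,
    ← ev_d1 (fun e => ((T.al e * T.be e : ℤ) : K)) T.cy]
  refine T.P.ev_congr (fun σ hσ => ?_) T.ht
  simp only [Pi.sub_apply, Pi.neg_apply, Pi.add_apply, z_add T.ha hσ, z_add T.hb hσ]
  push_cast
  ring

/-- the boundary connection -/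
def g {R : Type} [Ring R] (a b : Rˣ) : Sx 1 X → Rˣ := fun e => a ^ T.al e * b ^ T.be e

/-- the cap -/
def cap (a : (Tw G)ˣ) (w : Tw G) : O :=
  ev K (fun σ => lam G (D G (a ^ T.al (e2 σ 0 1) : (Tw G)ˣ) *
    ((a ^ T.al (e2 σ 1 2) : (Tw G)ˣ) * T.be (e2 σ 1 2) • w) *
      ((a ^ T.al (e2 σ 0 2))⁻¹ : (Tw G)ˣ))) T.t

/-- first part of the boundary action -/
def C0 (a b : (Tw G)ˣ) : O :=
  ev K (fun σ => lam G (D G (b ^ T.be (e2 σ 0 1) : (Tw G)ˣ) *
    (((a ^ T.al (e2 σ 1 2) : (Tw G)ˣ) : Tw G) - 1) * ((b ^ T.be (e2 σ 1 2) : (Tw G)ˣ) *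
      ((b ^ T.be (e2 σ 0 2))⁻¹ : (Tw G)ˣ)))) T.t

/-- the boundary action -/
def CC (a b : (Tw G)ˣ) : O := T.C0 a b - T.cap a ((b : Tw G) - 1)

theorem g_CU (hm : G.Id m) {a b : (Tw G)ˣ} (ha : a ∈ U hm) (hb : b ∈ U hm) (P : Sb X) :
    CU P hm (T.g a b) := fun _ _ => mul_mem (zpow_mem ha _) (zpow_mem hb _)

theorem g_dif (hH : G.Id H) {a b a' b' : (Tw G)ˣ} (h : In H ((a' : Tw G) - (a : Tw G)))
    (h' : In H ((b' : Tw G) - (b : Tw G))) (P : Sb X) : CI P H (dif (T.g a' b') (T.g a b)) :=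
  fun _ _ => mul_sub_in hH (zpow_sub hH h _) (zpow_sub hH h' _)

theorem cap_sub (a : (Tw G)ˣ) (w w' : Tw G) : T.cap a (w - w') = T.cap a w - T.cap a w' := by
  simp only [cap, smul_sub, mul_sub, sub_mul, map_sub]
  exact ev_sub _ _ _

theorem cap_zero (a : (Tw G)ˣ) : T.cap a 0 = 0 := by simpa using T.cap_sub a 0 0

theorem cap_one (w : Tw G) : T.cap 1 w = 0 := by
  simp only [cap, one_zpow, Units.val_one, D_one, zero_mul, map_zero]
  exact ev_zero _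

theorem C0_one (a : (Tw G)ˣ) : T.C0 a 1 = 0 := by
  simp only [C0, one_zpow, Units.val_one, D_one, zero_mul, map_zero]
  exact ev_zero _

theorem one_C0 (a : (Tw G)ˣ) : T.C0 1 a = 0 := by
  simp only [C0, one_zpow, Units.val_one, sub_self, mul_zero, zero_mul, map_zero]
  exact ev_zero _

theorem CC_one (a : (Tw G)ˣ) : T.CC a 1 = 0 := by simp [CC, C0_one, cap_zero]

theorem one_CC (a : (Tw G)ˣ) : T.CC 1 a = 0 := by simp [CC, one_C0, cap_one]

theorem ev_hg {n : ℕ} (φ : Co (Tw G) n X) (c : Ch K n X) :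
    G.Hg (g0 p) (ev K (fun σ => lam G (φ σ)) c) := map_ev (lam G) φ c ▸ lam_hg _

theorem cap_hg (a : (Tw G)ˣ) (w : Tw G) : G.Hg (g0 p) (T.cap a w) := ev_hg _ _


theorem cap_mem (hI : G.Id I) (hH : G.Id H) {a : (Tw G)ˣ} (ha : a ∈ U hI) {w : Tw G}
    (hw : In H w) : T.cap a w ∈ I * H :=
  ev_ideal (fun _ _ => lam2 hI hH (D_mem_U hI (zpow_mem ha _)) (mem_left hH _ (hw.zsmul _)) _) T.ht

section map

variable {O' : Type} [CommRing O'] [Algebra K O'] {G' : Gr (Gm p) K O'} {φ : O →ₐ[K] O'}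

theorem g_mp (h : G.Hom G' φ) (a b : (Tw G)ˣ) : mp h (T.g a b) = T.g (um h a) (um h b) := by
  funext e; simp only [mp, g, map_mul, map_zpow]

theorem cap_mp (h : G.Hom G' φ) (a : (Tw G)ˣ) (w : Tw G) :
    T.cap (um h a) (Tw.map h w) = φ (T.cap a w) := by
  rw [cap, cap, show φ (ev K _ T.t) = _ from map_ev φ.toLinearMap _ _]
  simp only [← map_zpow, ← map_inv, val_um, ← map_D, ← map_zsmul, ← map_mul, lam_map,
    AlgHom.toLinearMap_apply]

theorem C0_mp (h : G.Hom G' φ) (a b : (Tw G)ˣ) : T.C0 (um h a) (um h b) = φ (T.C0 a b) := by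
  have e : ∀ x : Tw G, Tw.map h x - 1 = Tw.map h (x - 1) := fun x => by rw [map_sub, map_one]
  rw [C0, C0, show φ (ev K _ T.t) = _ from map_ev φ.toLinearMap _ _]
  simp only [← map_zpow, ← map_inv, val_um, ← map_D, e, ← map_mul, lam_map,
    AlgHom.toLinearMap_apply]

theorem CC_mp (h : G.Hom G' φ) (a b : (Tw G)ˣ) : T.CC (um h a) (um h b) = φ (T.CC a b) := by
  rw [CC, CC, map_sub, ← T.cap_mp h, C0_mp, map_sub, map_one, val_um]

end map

/-- second difference of the cap -/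
theorem cap_two (hm : G.Id m) (hI : G.Id I) (hH : G.Id H) {a a' : (Tw G)ˣ} (ha : a ∈ U hm)
    (ha' : a' ∈ U hm) (h : In I ((a' : Tw G) - (a : Tw G))) {w : Tw G} (hw : In H w) :
    T.cap a' w - T.cap a w - T.s • lam G (D G ((a' : Tw G) - (a : Tw G)) * w) ∈ m * I * H := by
  rw [s, ← ev_pz, cap, cap, ← ev_sub, ← ev_sub]
  refine ev_ideal (fun σ _ => ?_) T.ht
  have := cap_pt hm hI hH (zpow_mem ha (T.al (e2 σ 0 1))) (zpow_mem ha' (T.al (e2 σ 1 2)))
    (inv_mem (zpow_mem ha' (T.al (e2 σ 0 2)))) (zpow_sub hI h _) (zpow_sub hI h _) (zinv_sub hI h _)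
    (zpow_lin' hm hI h ha ha' _) (hw.zsmul (T.be (e2 σ 1 2)))
  rwa [map_zsmul, smul_mul_smul_comm, map_zsmul] at this

/-- second difference of the boundary action -/
theorem CC_two (hm : G.Id m) (hI : G.Id I) (hH : G.Id H) [Fact ((p : O) = 0)] {a a' b b' : (Tw G)ˣ}
    (ha : a ∈ U hm) (ha' : a' ∈ U hm) (hb : b ∈ U hm) (hb' : b' ∈ U hm)
    (h : In I ((a' : Tw G) - (a : Tw G))) (h' : In H ((b' : Tw G) - (b : Tw G))) :
    T.CC a' b' - T.CC a b' - T.CC a' b + T.CC a b +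
      T.s • lam G (((a' : Tw G) - (a : Tw G)) * ((b' : Tw G) - (b : Tw G))) ∈ m * I * H := by
  have e1 : T.C0 a' b' - T.C0 a b' - (T.C0 a' b - T.C0 a b) -
      (-T.s) • lam G (D G ((b' : Tw G) - (b : Tw G)) * ((a' : Tw G) - (a : Tw G))) ∈ m * I * H := by
    rw [← ba, ← ev_pz]
    simp only [C0, ← ev_sub]
    refine ev_ideal (fun σ _ => ?_) T.ht
    have := c0_pt hm hI hH (zpow_mem hb (T.be (e2 σ 0 1)))
      (mul_mem (zpow_mem hb' (T.be (e2 σ 1 2))) (inv_mem (zpow_mem hb' (T.be (e2 σ 0 2)))))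
      (zpow_sub hH h' _) (mul_sub_in hH (zpow_sub hH h' (T.be (e2 σ 1 2))) (zinv_sub hH h' _))
      (zpow_lin' hm hH h' hb hb' _) (zpow_sub hI h (T.al (e2 σ 1 2))) (zpow_lin' hm hI h ha ha' _)
      (h'.zsmul _)
    rw [map_zsmul, smul_mul_smul_comm, map_zsmul] at this
    convert this using 2
    simp only [Pi.sub_apply, ← map_sub (lam G), Units.val_mul]
    congr 2; noncomm_ring
  have e2 := T.cap_two hm hI hH ha ha' h h'
  have e3 := (td G).lam_DD ((a' : Tw G) - (a : Tw G)) ((b' : Tw G) - (b : Tw G))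
  simp only [td_D, td_lam] at e3
  rw [lam_comm] at e1
  convert sub_mem e1 e2 using 1
  simp only [← e3, CC, smul_add, neg_smul, cap_sub]
  abel

variable [Fact ((p : O) = 0)]

theorem ev_psi (hm : G.Id m) (hH : G.Id H) {b' b : (Tw G)ˣ} (hb : b ∈ U hm)
    (h : In H ((b' : Tw G) - (b : Tw G))) (β : Co ℤ 1 X) (hβ : β ∈ T.P.Z ℤ ℤ 1) :
    ev K (fun σ => lam G (D G (b ^ β (e2 σ 0 1) : (Tw G)ˣ) * (((b' ^ β (e2 σ 1 2) : (Tw G)ˣ) : Tw G) -
      ((b ^ β (e2 σ 1 2) : (Tw G)ˣ) : Tw G)) * ((b ^ β (e2 σ 0 2))⁻¹ : (Tw G)ˣ))) T.t ∈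
      m * (H * H) := by
  obtain ⟨ψ, hψ⟩ := psi_cob hm hH hb h
  rw [← sub_zero (ev K _ _), ← ev_d1 (fun e => ψ (β e)) T.cy, ← ev_sub]
  refine ev_ideal (fun σ hσ => ?_) T.ht
  simp only [Pi.sub_apply, z_add hβ hσ]
  exact hψ _ _

/-- the master formula for the boundary term -/
theorem BE_g (hm : G.Id m) (hNa : G.Id Na) (hNb : G.Id Nb) (hH : G.Id H) (am : Na ≤ m) (bm : Nb ≤ m)
    {a a' b b' : (Tw G)ˣ} (ha : a ∈ U hNa) (hb : b ∈ U hNb) (h : In H ((a' : Tw G) - (a : Tw G)))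
    (h' : In H ((b' : Tw G) - (b : Tw G))) :
    ev K (BE (T.g a b) (dif (T.g a' b') (T.g a b))) T.t -
      (T.cap a ((b' : Tw G) - (b : Tw G)) + (T.C0 a' b - T.C0 a b)) ∈ Na * Nb * H ⊔ m * (H * H) := by
  refine (Submodule.sub_mem_iff_left _ (Ideal.mem_sup_right (add_mem
    (T.ev_psi hm hH (U_mono hNa hm am ha) h _ T.ha) (T.ev_psi hm hH (U_mono hNb hm bm hb) h' _ T.hb)))).1 ?_
  simp only [cap, C0, ← ev_sub, ← ev_add]
  refine ev_ideal (fun σ _ => ?_) T.ht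
  have := be_pt hm hNa hNb hH am bm (zpow_mem ha (T.al (e2 σ 0 1))) (zpow_mem ha (T.al (e2 σ 1 2)))
    (inv_mem (zpow_mem ha (T.al (e2 σ 0 2)))) (zpow_mem hb (T.be (e2 σ 0 1)))
    (zpow_mem hb (T.be (e2 σ 1 2))) (inv_mem (zpow_mem hb (T.be (e2 σ 0 2)))) (zpow_sub hH h _)
    (zpow_sub hH h' _) (zpow_lin hH hNb h' hb _)
  convert this using 1
  simp only [Pi.sub_apply, Pi.add_apply, BE, TD.be, td_D, td_lam, gs, dif, g, Units.val_mul,
    mul_inv_rev, mul_sub, sub_mul, map_sub]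
  abel

end To

end Crest.Agent.N255.Cs

end
end

-- ▼ part N255/Cs/CapD
section

/-!
# Row 255 (helper31): the capped potential, variation and derivatives
-/

set_option autoImplicit false
open Finset

noncomputable section

namespace Crest.Agent.N255.Cs

open Tw Tp TrivSqZeroExt

variable {X : Type} [TopologicalSpace X] {K : Type} [CommRing K] {p : ℕ} [hpp : Fact p.Prime]
  {O : Type} [CommRing O] [Algebra K O] {G : Gr (Gm p) K O} {m I J H Na Nb E : Ideal O}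

theorem in_lin (f : ℤ → Tw G) (c : Tw G) (h0 : f 0 = 0) (h : ∀ n, In I (f (n + 1) - f n - c))
    (n : ℤ) : In I (f n - n • c) := by
  induction n using Int.induction_on with
  | zero => simpa [h0] using in_zero
  | succ n ih => exact In.eq (In.add (h n) ih) (by rw [add_smul, one_smul]; abel)
  | pred n ih =>
    have := h (-(n : ℤ) - 1)
    rw [sub_add_cancel] at this
    exact In.eq (In.sub ih this) (by rw [sub_smul, one_smul]; abel)

/-- units commuting with `x` modulo `J` -/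
def cmS (hJ : G.Id J) (x : Tw G) : Subgroup (Tw G)ˣ where
  carrier := {u | In J (u.val * x - x * u.val)}
  one_mem' := by simpa using in_zero
  mul_mem' {u v} hu hv := In.eq (In.add (mem_left hJ (u : Tw G) hv) (mem_right hJ (v : Tw G) hu))
    (by rw [Units.val_mul]; noncomm_ring)
  inv_mem' {u} hu := In.eq (In.neg (in_conj hJ hu (u⁻¹ : (Tw G)ˣ) (u⁻¹ : (Tw G)ˣ))) (by
    rw [mul_sub, sub_mul, Units.inv_mul_cancel_left, ← mul_assoc, Units.mul_inv_cancel_right]; abel)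

theorem cm_zpow (hJ : G.Id J) {a b : (Tw G)ˣ} (h : In J (a.val * b.val - b.val * a.val)) (i j : ℤ) :
    In J ((b ^ j).val * (a ^ i).val - (a ^ i).val * (b ^ j).val) :=
  zpow_mem (K := cmS hJ (a ^ i : (Tw G)ˣ)) (x := b)
    (In.eq (In.neg (zpow_mem (K := cmS hJ b) (x := a) h i)) (neg_sub _ _).symm) j

theorem cm_lin (hm : G.Id m) (hJ : G.Id J) {u : (Tw G)ˣ} (hu : u ∈ U hm) {x : Tw G}
    (h : In J (u.val * x - x * u.val)) (n : ℤ) :
    In (m * J) ((u ^ n).val * x - x * (u ^ n).val - n • (u.val * x - x * u.val)) := by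
  refine in_lin (fun n => (u ^ n).val * x - x * (u ^ n).val) _ (by simp)
    (fun n => ?_) n
  have h1 := o_mul_mem hJ hm (zpow_mem (K := cmS hJ x) (x := u) h n) hu
  rw [mul_comm J] at h1
  refine In.eq (In.add (o_mul_mem hm hJ (zpow_mem hu n) h) h1) ?_
  simp only [zpow_add_one, Units.val_mul]
  noncomm_ring

theorem cm_U (hNa : G.Id Na) (hNb : G.Id Nb) {a b : (Tw G)ˣ} (ha : a ∈ U hNa) (hb : b ∈ U hNb) :
    In (Na * Nb) (a.val * b.val - b.val * a.val) := by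
  have := o_mul_mem hNb hNa hb ha
  rw [mul_comm Nb] at this
  exact In.eq (In.sub (o_mul_mem hNa hNb ha hb) this) (by noncomm_ring)

section dual

variable {O' : Type} [CommRing O'] [Algebra K O'] {G' : Gr (Gm p) K O'}



theorem snd_ev {n : ℕ} (φ : Co (TrivSqZeroExt O O) n X) (c : Ch K n X) :
    (ev K φ c).snd = ev K (fun σ => (φ σ).snd) c := map_ev (LinearMap.snd K O O) φ c

variable {γ : Gm p} {δ : Derivation K O O}

theorem um_jet (h : G.Dg γ δ) {u : (Tw G)ˣ} (e : δ (o G u) = 0) :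
    um (hom_jet h) u = um (hom_inl G γ) u := Units.ext (TrivSqZeroExt.ext rfl e)

theorem jet_sub (h : G.Dg γ δ) (u : (Tw G)ˣ) : In (pid ⊥ ⊤ le_top)
    ((um (hom_jet h) u : Tw (G.dual γ)) - (um (hom_inl G γ) u : Tw (G.dual γ))) :=
  ⟨sub_self (o G u), trivial⟩

theorem jet_U (h : G.Dg γ δ) (hm : G.Id m) {u : (Tw G)ˣ} (hu : u ∈ U hm) :
    um (hom_jet h) u ∈ U (id_pid le_top hm G.id_top γ) :=
  um_mem (hom_jet h) hm (id_pid le_top hm G.id_top γ) (fun _ hz => ⟨hz, trivial⟩) hu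

theorem inl_U (hm : G.Id m) (hI : G.Id I) (e : m ≤ I) {u : (Tw G)ˣ} (hu : u ∈ U hm) :
    um (hom_inl G γ) u ∈ U (id_pid e hm hI γ) :=
  um_mem (hom_inl G γ) hm (id_pid e hm hI γ) (fun _ hz => ⟨hz, zero_mem _⟩) hu

/-- the pairing with the derivative of a unit -/
theorem lam_jet (h : G.Dg γ δ) (hm : G.Id m) (hH : G.Id H) {u : (Tw G)ˣ} {c : K}
    (hc : δ (o G u) - algebraMap K O c ∈ m) {w : Tw G} (hw : In H w) :
    (lam (G.dual γ) (((um (hom_jet h) u : Tw (G.dual γ)) - (um (hom_inl G γ) u : Tw (G.dual γ))) *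
      Tw.map (hom_inl G γ) w)).snd - sg γ (g0 p - γ) • c • G.pr (g0 p - γ) (o G w) ∈ m * H := by
  let x : Tw (G.dual γ) := up _ (inr (algebraMap K O c))
  rw [← lam_eps (G := G) (γ := γ) c x rfl w, ← snd_sub, ← map_sub, ← sub_mul]
  have h1 := id_pid bot_le G.id_bot hm γ
  have h2 := id_pid le_rfl hH hH γ
  have h3 : In (pid H H le_rfl) (Tw.map (hom_inl G γ) w) := ⟨hw, zero_mem _⟩
  refine (pid_mul (I'' := ⊥) bot_le (by simp) (by simp) le_rfl (lam_mem (h1.mul h2)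
    (o_mul_mem h1 h2 ⟨?_, ?_⟩ h3))).2
  · exact (sub_zero _).trans (sub_self (o G u))
  · change δ (o G u) - 0 - algebraMap K O c ∈ m
    rwa [sub_zero]

end dual

variable [Fact ((p : O) = 0)] {γ : Gm p} {δ : Derivation K O O} {P : Sb X} {g g' k k' : Cn G X}


theorem BD_congr (hδ : G.Dg γ δ) (h : ∀ σ ∈ P.S 1, g σ = k σ) {c : Ch K 2 X}
    (hc : c ∈ P.ch K 2) : ev K (BD hδ g) c = ev K (BD hδ k) c :=
  P.ev_congr (fun _ hσ => sub_eq_zero.2 (bD_congr hδ (gs_congr h hσ (by decide))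
    (gs_congr h hσ (by decide)) (gs_congr h hσ (by decide)))) hc

theorem BD_eq (hδ : G.Dg γ δ) (g : Cn G X) (c : Ch K 2 X) :
    ev K (BD hδ g) c = (ev K (BK (mp (hom_jet hδ) g) (mp (hom_inl G γ) g)) c).snd :=
  (snd_ev _ c).symm

theorem BK_sub_BE (hI : G.Id I) (hH : G.Id H) (f : CI P I (cur g)) (k : CI P H (dif g' g))
    {c : Ch K 2 X} (hc : c ∈ P.ch K 2) : ev K (BE g (dif g' g)) c - ev K (BK g' g) c ∈ H * I := by
  rw [← ev_sub]
  refine ev_ideal (fun σ hσ => ?_) hc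
  have := ka_mem hI hH (f := fc (gs g σ)) (k := df (gs g' σ) (gs g σ)) (f.fc hσ 0 1 2) (k.df hσ 0 2)
  rwa [← sub_sub_cancel ((td G).be (gs g σ) (df (gs g' σ) (gs g σ)) 0 1 2) ((td G).ka _ _ _ _ _)]
    at this

/-- the derivative of the potential, no hypothesis on the direction -/
theorem CS_der0 (hδ : G.Dg γ δ) {hm : G.Id m} (hI : G.Id I) (h : CU P hm g) (f : CI P I (cur g))
    {c : Ch K 3 X} (hc : c ∈ P.ch K 3) : δ (ev K (CS g) c) + ev K (BD hδ g) (bd K c) ∈ I := by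
  have hI' := id_pid le_rfl hI hI γ
  have hH' := id_pid (le_top (a := ⊥)) G.id_bot G.id_top γ
  have f' : CI P (pid I I le_rfl) (cur (mp (hom_inl G γ) g)) :=
    f.mp (hom_inl G γ) fun _ hz => ⟨hz, zero_mem _⟩
  have k' : CI P (pid ⊥ ⊤ le_top) (dif (mp (hom_jet hδ) g) (mp (hom_inl G γ) g)) :=
    fun σ _ => jet_sub hδ (g σ)
  have e := CS_var_q (hm := id_pid le_top hm G.id_top γ) (g := mp (hom_inl G γ) g) hI' hH' hH' (pid_mono _ bot_le le_rfl)
    (fun σ hσ => inl_U hm G.id_top le_top (h σ hσ)) f' k' (fun σ hσ => by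
      rw [cob_d1]
      exact In.add (In.sub (k'.df hσ 1 2) (k'.df hσ 0 2)) (k'.df hσ 0 1)) hc
  have l0 : pid ⊥ ⊤ le_top * (pid I I le_rfl ⊔ pid ⊥ ⊤ le_top) ≤ pid ⊥ I bot_le :=
    (Ideal.mul_mono_right (sup_le (pid_mono (le_top (a := I)) le_rfl le_top)
      (pid_mono _ bot_le le_rfl))).trans (pid_mul _ (by simp) (by simp) (by simp))
  have e2 : ev K (cup (lq (G.dual γ)) 3 (dif (mp (hom_jet hδ) g) (mp (hom_inl G γ) g))
      (cur (mp (hom_inl G γ) g))) c ∈ pid ⊥ I bot_le := ev_ideal (fun σ hσ => by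
    rw [cup12, lq_apply]
    exact l0 (Ideal.mul_mono_right le_sup_left (lam_mem (hH'.mul hI') (o_mul_mem hH' hI'
      (k'.df hσ 0 1) (f' _ (e3_mem P hσ (by decide) (by decide))))))) hc
  have := (add_mem (sup_le (Ideal.mul_le_right.trans l0) l0 e) e2).2
  rwa [sub_add_cancel, CS_mp, CS_mp, snd_add, ← BD_eq, snd_sub, inlAlgHom_apply, snd_inl,
    sub_zero] at this

namespace To

variable (T : To K X) {a a' b b' : (Tw G)ˣ}

omit [Fact ((p : O) = 0)] in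
theorem cur_g (hJ : G.Id J) (h : In J (a.val * b.val - b.val * a.val)) : CI T.P J (cur (T.g a b)) :=
  fun σ hσ => In.eq (in_conj hJ (cm_zpow hJ h (T.al (e2 σ 1 2)) (T.be (e2 σ 0 1)))
    (a ^ T.al (e2 σ 0 1) : (Tw G)ˣ) (b ^ T.be (e2 σ 1 2) : (Tw G)ˣ)) (by
      simp only [cur, fc, gs, g, z_add T.ha hσ, z_add T.hb hσ, zpow_add, Units.val_mul]
      noncomm_ring)

omit [Fact ((p : O) = 0)] in
/-- the curvature on the torus is the commutator -/
theorem ev_cur_g (hm : G.Id m) (hJ : G.Id J) (ha : a ∈ U hm) (hb : b ∈ U hm)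
    (h : In J (a.val * b.val - b.val * a.val)) :
    In (m * J) (ev K (cur (T.g a b)) T.t - T.s • (a.val * b.val - b.val * a.val)) := by
  rw [← neg_sub (b.val * a.val), smul_neg, ← neg_smul, ← ba, ← ev_pz, ← ev_sub]
  refine CI.ev (fun σ hσ => ?_) T.ht
  have h0 := cm_zpow hJ h (T.al (e2 σ 1 2)) (T.be (e2 σ 0 1))
  have h1 := o_mul_mem hJ hm h0 (zpow_mem hb (T.be (e2 σ 1 2)))
  rw [mul_comm J] at h1
  have h2 := cm_lin hm hJ hb (x := (a ^ T.al (e2 σ 1 2) : (Tw G)ˣ))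
    (by simpa using cm_zpow hJ h (T.al (e2 σ 1 2)) 1) (T.be (e2 σ 0 1))
  refine In.eq (In.sub (In.add (In.add (mem_right (hm.mul hJ) (b ^ T.be (e2 σ 1 2) : (Tw G)ˣ)
    (o_mul_mem hm hJ (zpow_mem ha (T.al (e2 σ 0 1))) h0)) h1) h2)
    ((cm_lin hm hJ ha h (T.al (e2 σ 1 2))).zsmul (T.be (e2 σ 0 1)))) ?_
  simp only [Pi.sub_apply, cur, fc, gs, g, z_add T.ha hσ, z_add T.hb hσ, zpow_add, Units.val_mul,
    mul_smul, smul_sub]
  noncomm_ring

omit [Fact ((p : O) = 0)] in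
theorem cap_sub_mem (hI : G.Id I) (hH : G.Id H) (h : In I ((a' : Tw G) - (a : Tw G))) {w : Tw G}
    (hw : In H w) : T.cap a' w - T.cap a w ∈ I * H := by
  have := add_mem (T.cap_two G.id_top hI hH (a := a) (a' := a') trivial trivial h hw)
    (Submodule.smul_of_tower_mem _ T.s (by
      rw [Ideal.top_mul]; exact lam_mem (hI.mul hH) (o_mul_mem hI hH (D_mem hI h) hw)))
  rwa [sub_add_cancel, Ideal.top_mul] at this

/-- variation of the cap -/
theorem cap_var (hm : G.Id m) (hNa : G.Id Na) (hNb : G.Id Nb) (hH : G.Id H) (hI : G.Id I)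
    (am : Na ≤ m) (bm : Nb ≤ m) (ha : a ∈ U hNa) (hb : b ∈ U hNb)
    (h : In H ((a' : Tw G) - (a : Tw G))) (h' : In H ((b' : Tw G) - (b : Tw G)))
    (h'' : In I ((a' : Tw G) - (a : Tw G))) :
    T.cap a' ((b' : Tw G) - 1) - T.cap a ((b : Tw G) - 1) - ev K (BK (T.g a' b') (T.g a b)) T.t +
      (T.CC a' b - T.CC a b) ∈ Na * Nb * H ⊔ m * (H * H) ⊔ I * H := by
  have e1 := T.BE_g hm hNa hNb hH am bm ha hb h h'
  have e2 := BK_sub_BE (hNa.mul hNb) hH (T.cur_g (hNa.mul hNb) (cm_U hNa hNb ha hb))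
    (T.g_dif hH h h' _) T.ht
  rw [mul_comm] at e2
  convert add_mem (Ideal.mem_sup_left (sub_mem (Ideal.mem_sup_left e2) e1))
    (Ideal.mem_sup_right (T.cap_sub_mem hI hH h'' h')) using 1
  simp only [CC, cap_sub]
  abel

/-- the derivative of the boundary action in its first argument -/
def dC (h : G.Dg γ δ) (a b : (Tw G)ˣ) : O := (T.CC (um (hom_jet h) a) (um (hom_inl G γ) b)).snd

omit [Fact ((p : O) = 0)] in
theorem dC_zero (h : G.Dg γ δ) (e : δ (o G a) = 0) (b : (Tw G)ˣ) : T.dC h a b = 0 := by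
  rw [dC, um_jet h e, CC_mp]; rfl

omit [Fact ((p : O) = 0)] in
theorem dC_one (h : G.Dg γ δ) (a : (Tw G)ˣ) : T.dC h a 1 = 0 := by
  rw [dC, map_one, CC_one]; rfl

omit [Fact ((p : O) = 0)] in
theorem dC_eq (h : G.Dg γ δ) (a : (Tw G)ˣ) (e : δ (o G b) = 0) : T.dC h a b = δ (T.CC a b) := by
  rw [dC, ← um_jet h e, CC_mp]; rfl


/-- derivative of the cap -/
theorem cap_der (h : G.Dg γ δ) (hNa : G.Id Na) (hNb : G.Id Nb) (ha : a ∈ U hNa) (hb : b ∈ U hNb) :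
    δ (T.cap a ((b : Tw G) - 1)) - ev K (BD h (T.g a b)) T.t + T.dC h a b ∈ Na * Nb := by
  have hH' := id_pid (le_top (a := ⊥)) G.id_bot G.id_top γ
  have e := T.cap_var (G.dual γ).id_top (id_pid le_rfl hNa hNa γ) (id_pid le_rfl hNb hNb γ) hH' hH'
    le_top le_top (inl_U hNa hNa le_rfl ha) (inl_U hNb hNb le_rfl hb) (jet_sub h a) (jet_sub h b)
    (jet_sub h a)
  have l0 : pid (⊥ : Ideal O) ⊤ le_top * pid ⊥ ⊤ le_top ≤ pid ⊥ (Na * Nb) bot_le :=
    pid_mul _ (by simp) (by simp) (by simp)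
  have e' := (sup_le (sup_le ((Ideal.mul_mono_left (pid_mul (I'' := Na * Nb) le_rfl le_rfl le_rfl
    le_rfl)).trans (pid_mul _ (by simp) (by simp) (by simp))) (Ideal.mul_le_right.trans l0)) l0 e).2
  have q : ∀ {φ} (k : G.Hom (G.dual γ) φ), (um k b : Tw (G.dual γ)) - 1 = Tw.map k (b - 1) :=
    fun k => by rw [map_sub, map_one, val_um]
  rwa [q, q, cap_mp, cap_mp, CC_mp _ (hom_inl G γ), ← g_mp, ← g_mp, snd_add, snd_sub, snd_sub,
    snd_sub, ← BD_eq, inlAlgHom_apply, inlAlgHom_apply, snd_inl, snd_inl, sub_zero, sub_zero] at e'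

theorem dC_two (h : G.Dg γ δ) (hm : G.Id m) (hH : G.Id H) (ha : a ∈ U hm) (hb : b ∈ U hm)
    (hb' : b' ∈ U hm) {c : K} (hc : δ (o G a) - algebraMap K O c ∈ m)
    (h' : In H ((b' : Tw G) - (b : Tw G))) : T.dC h a b' - T.dC h a b +
      T.s • sg γ (g0 p - γ) • c • G.pr (g0 p - γ) (o G ((b' : Tw G) - (b : Tw G))) ∈ m * H := by
  have e := T.CC_two (id_pid le_top hm G.id_top γ) (id_pid le_top G.id_bot G.id_top γ)
    (id_pid le_rfl hH hH γ) (inl_U hm G.id_top le_top ha) (jet_U h hm ha)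
    (inl_U hm G.id_top le_top hb) (inl_U hm G.id_top le_top hb') (jet_sub h a)
    ⟨h', sub_mem (zero_mem H) (zero_mem H)⟩
  have e' := ((Ideal.mul_mono_left (pid_mul (I'' := ⊥) (J'' := m) bot_le (by simp) (by simp)
    (by simp))).trans (pid_mul (I'' := ⊥) bot_le (by simp) (by simp) le_rfl) e).2
  rw [CC_mp _ (hom_inl G γ), CC_mp _ (hom_inl G γ), val_um (hom_inl G γ) b', val_um (hom_inl G γ) b,
    ← map_sub] at e'
  convert sub_mem e' (Submodule.smul_of_tower_mem _ T.s (lam_jet h hm hH hc h')) using 1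
  simp only [dC, snd_add, snd_sub, snd_smul, inlAlgHom_apply, snd_inl, smul_sub]
  abel

/-- derivative of the boundary action in its second argument -/
theorem CC_der (h : G.Dg γ δ) (hm : G.Id m) (hNa : G.Id Na) (am : Na ≤ m) (ha : a ∈ U hNa)
    (hb : b ∈ U hm) (e : δ (o G a) = 0) {c : K} (hc : δ (o G b) - algebraMap K O c ∈ m) :
    δ (T.CC a b) + T.s • sg γ (g0 p - γ) • c • G.pr (g0 p - γ) (o G ((a : Tw G) - 1)) ∈ m * Na := by
  have e0 := T.CC_two (id_pid le_top hm G.id_top γ) (id_pid le_rfl hNa hNa γ)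
    (id_pid le_top G.id_bot G.id_top γ) (one_mem _) (inl_U hm G.id_top le_top (am ha))
    (inl_U hm G.id_top le_top hb) (jet_U h hm hb) (inl_U hNa hNa le_rfl ha) (jet_sub h b)
  have e' := ((Ideal.mul_mono_left (pid_mul (I'' := m * Na) (J'' := Na) Ideal.mul_le_right le_rfl
    Ideal.mul_le_right (by simp))).trans (pid_mul (I'' := ⊥) (J'' := m * Na) bot_le (by simp) (by simp)
      (by simp)) e0).2
  rw [one_CC, one_CC, CC_mp _ (hom_inl G γ), lam_comm, val_um (hom_inl G γ) a, Units.val_one,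
    ← map_one (Tw.map (hom_inl G γ)), ← map_sub, ← um_jet h e, CC_mp] at e'
  convert sub_mem e' (Submodule.smul_of_tower_mem _ T.s (lam_jet h hm hNa hc ha)) using 1
  have : (jet δ (T.CC a b)).snd = δ (T.CC a b) := rfl
  simp only [this, snd_add, snd_sub, snd_smul, inlAlgHom_apply, snd_inl, smul_sub, snd_zero]
  abel

/-- the leading term of the boundary action -/
theorem CC_q (hm : G.Id m) (hNa : G.Id Na) (hNb : G.Id Nb) (am : Na ≤ m) (bm : Nb ≤ m)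
    (ha : a ∈ U hNa) (hb : b ∈ U hNb) :
    T.CC a b + T.s • lam G (((a : Tw G) - 1) * ((b : Tw G) - 1)) ∈ m * Na * Nb := by
  simpa only [one_CC, CC_one, sub_zero, add_zero, Units.val_one] using
    T.CC_two hm hNa hNb (one_mem _) (am ha) (one_mem _) (bm hb) ha hb

end To

end Crest.Agent.N255.Cs

end
end

-- ▼ part N255/Cs/CapW

/-!
# Row 255 (helper31): the capped potential `W = CS + cap`
-/

set_option autoImplicit false
open Finset

noncomputable section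

namespace Crest.Agent.N255.Cs

open Tw Tp

variable {X : Type} [TopologicalSpace X] {K : Type} [CommRing K] {p : ℕ} [hpp : Fact p.Prime]
  {O : Type} [CommRing O] [Algebra K O] {G : Gr (Gm p) K O} {m I J H Na Nb E : Ideal O}
  [Fact ((p : O) = 0)] {γ : Gm p} {δ : Derivation K O O} {P : Sb X} {g g' : Cn G X}



namespace To

variable (T : To K X) {a a' b b' : (Tw G)ˣ} {σ σ' : Ch K 3 X}

/-- the capped potential -/
def W (σ : Ch K 3 X) (g : Cn G X) (a b : (Tw G)ˣ) : O := ev K (CS g) σ + T.cap a ((b : Tw G) - 1)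

/-- `g` has the boundary values `a ^ α b ^ β` -/
def Bc {R : Type} [Ring R] (g : Sx 1 X → Rˣ) (a b : Rˣ) : Prop := ∀ e ∈ T.P.S 1, g e = T.g a b e

theorem W_hg (σ : Ch K 3 X) (g : Cn G X) (a b : (Tw G)ˣ) : G.Hg (g0 p) (T.W σ g a b) :=
  (CS_hg g σ).add (T.cap_hg _ _)

theorem W_mem {hm : G.Id m} (hI : G.Id I) (hNa : G.Id Na) (hNb : G.Id Nb) (h : CU P hm g)
    (f : CI P I (cur g)) (hσ : σ ∈ P.ch K 3) (ha : a ∈ U hNa) (hb : b ∈ U hNb) :
    T.W σ g a b ∈ m * I ⊔ Na * Nb :=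
  add_mem (Ideal.mem_sup_left (CS_mem hI h f hσ)) (Ideal.mem_sup_right (T.cap_mem hNa hNb ha hb))

theorem W_sq {hm : G.Id m} (h : CU P hm g) (hσ : σ ∈ P.ch K 3) (ha : a ∈ U hm) (hb : b ∈ U hm) :
    T.W σ g a b ∈ m ^ 2 := by
  have := T.W_mem hm hm hm h (fun _ hτ => fc_mem_of_U hm (h.gs hτ 0 1) (h.gs hτ 1 2) (h.gs hτ 0 2))
    hσ ha hb
  rwa [sup_idem, ← sq] at this



section map

variable {O' : Type} [CommRing O'] [Algebra K O'] [Fact ((p : O') = 0)] {G' : Gr (Gm p) K O'}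
  {φ : O →ₐ[K] O'}

theorem W_mp (h : G.Hom G' φ) (σ : Ch K 3 X) (g : Cn G X) (a b : (Tw G)ˣ) :
    T.W σ (mp h g) (um h a) (um h b) = φ (T.W σ g a b) := by
  rw [W, W, map_add, CS_mp, ← T.cap_mp h, map_sub, map_one, val_um]

omit [Fact ((p : O) = 0)] [Fact ((p : O') = 0)] in
theorem Bc.mp {T : To K X} (e : T.Bc g a b) (h : G.Hom G' φ) : T.Bc (mp h g) (um h a) (um h b) :=
  fun s hs => by rw [← g_mp, Cs.mp, Cs.mp, e s hs]

end map



/-- derivative of the capped potential -/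
theorem W_der (hδ : G.Dg γ δ) {hm : G.Id m} (hI : G.Id I) (hNa : G.Id Na) (hNb : G.Id Nb)
    (h : CU P hm g) (f : CI P I (cur g)) {κ : Co K 1 X} (hκ : κ ∈ P.Z K K 1)
    (k : ∀ σ ∈ P.S 1, δ (o G (g σ)) - algebraMap K O (κ σ) ∈ m) (hσ : σ ∈ P.ch K 3)
    (hb : bd K σ = T.t) (e : T.Bc g a b) (ha : a ∈ U hNa) (hb' : b ∈ U hNb) :
    δ (T.W σ g a b) + T.dC hδ a b - sg γ (g0 p - γ) • G.pr (g0 p - γ)
      (o G (ev K (cup (LinearMap.lsmul K (Tw G)) 3 κ (cur g)) σ)) ∈ m * I ⊔ Na * Nb := by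
  have e1 := CS_der hδ hI h f hκ k hσ
  rw [hb, BD_congr hδ e T.ht] at e1
  convert add_mem (Ideal.mem_sup_left e1) (Ideal.mem_sup_right (T.cap_der hδ hNa hNb ha hb')) using 1
  simp only [W, map_add]; abel

/-- (T3) derivative in a direction which fixes `a` -/
theorem W_der_x (hδ : G.Dg γ δ) {hm : G.Id m} (hI : G.Id I) (hNa : G.Id Na) (hNb : G.Id Nb)
    (h : CU P hm g) (f : CI P I (cur g)) {κ : Co K 1 X} (hκ : κ ∈ P.Z K K 1)
    (k : ∀ σ ∈ P.S 1, δ (o G (g σ)) - algebraMap K O (κ σ) ∈ m) (hσ : σ ∈ P.ch K 3)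
    (hb : bd K σ = T.t) (e : T.Bc g a b) (ha : a ∈ U hNa) (hb' : b ∈ U hNb) (z : δ (o G a) = 0) :
    δ (T.W σ g a b) - sg γ (g0 p - γ) • G.pr (g0 p - γ)
      (o G (ev K (cup (LinearMap.lsmul K (Tw G)) 3 κ (cur g)) σ)) ∈ m * I ⊔ Na * Nb := by
  simpa only [T.dC_zero hδ z, add_zero] using T.W_der hδ hI hNa hNb h f hκ k hσ hb e ha hb'

theorem W_der0 (hδ : G.Dg γ δ) {hm : G.Id m} (hI : G.Id I) (hNa : G.Id Na) (hNb : G.Id Nb)
    (h : CU P hm g) (f : CI P I (cur g)) (hσ : σ ∈ P.ch K 3) (hb : bd K σ = T.t) (e : T.Bc g a b)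
    (ha : a ∈ U hNa) (hb' : b ∈ U hNb) : δ (T.W σ g a b) + T.dC hδ a b ∈ I ⊔ Na * Nb := by
  have e1 := CS_der0 hδ hI h f hσ
  rw [hb, BD_congr hδ e T.ht] at e1
  convert add_mem (Ideal.mem_sup_left e1) (Ideal.mem_sup_right (T.cap_der hδ hNa hNb ha hb')) using 1
  simp only [W, map_add]; abel

theorem dC_lead (hδ : G.Dg γ δ) (hm : G.Id m) (hNb : G.Id Nb) (bm : Nb ≤ m) (ha : a ∈ U hm)
    (hb : b ∈ U hNb) {c : K} (hc : δ (o G a) - algebraMap K O c ∈ m) : T.dC hδ a b +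
      T.s • sg γ (g0 p - γ) • c • G.pr (g0 p - γ) (o G ((b : Tw G) - 1)) ∈ m * Nb := by
  simpa only [dC_one, sub_zero, Units.val_one] using
    T.dC_two hδ hm hNb ha (one_mem _) (bm hb) hc hb

/-- the derivative in a boundary direction detects `b - 1` -/
theorem W_der_y (hδ : G.Dg γ δ) {hm : G.Id m} (hI : G.Id I) (hNb : G.Id Nb) (bm : Nb ≤ m)
    (h : CU P hm g) (f : CI P I (cur g)) (hσ : σ ∈ P.ch K 3) (hb : bd K σ = T.t) (e : T.Bc g a b)
    (ha : a ∈ U hm) (hb' : b ∈ U hNb) {c : K} (hc : δ (o G a) - algebraMap K O c ∈ m) :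
    δ (T.W σ g a b) - T.s • sg γ (g0 p - γ) • c • G.pr (g0 p - γ) (o G ((b : Tw G) - 1)) ∈
      I ⊔ m * Nb := by
  convert sub_mem (T.W_der0 hδ hI hm hNb h f hσ hb e ha hb')
    (Ideal.mem_sup_right (T.dC_lead hδ hm hNb bm ha hb' hc)) using 1
  abel


end To

end Crest.Agent.N255.Cs

end
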