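import Mathlib

/-!
# Row 255 (helper31): gradings by projections and the twisted ring of a graded algebra
-/

set_option autoImplicit false
open Finset

noncomputable section

namespace Crest.Agent.N255.Cs

/-- a grading of a commutative algebra by a finite group, given by its projections -/
structure Gr (Γ K O : Type*) [AddCommGroup Γ] [Fintype Γ] [DecidableEq Γ] [CommRing K] [CommRing O]
    [Algebra K O] where
  pr : Γ → O →ₗ[K] O
  sum : ∀ x, ∑ a, pr a x = x
  idem : ∀ a b x, pr a (pr b x) = if a = b then pr b x else 0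
  mul : ∀ a b x y, pr (a + b) (pr a x * pr b y) = pr a x * pr b y
  one : pr 0 1 = 1

namespace Gr

section gen

variable {Γ K O : Type*} [AddCommGroup Γ] [Fintype Γ] [DecidableEq Γ] [CommRing K] [CommRing O]
  [Algebra K O] (G : Gr Γ K O)

/-- homogeneous of degree `a` -/
def Hg (a : Γ) (x : O) : Prop := G.pr a x = x

theorem hg_pr (a : Γ) (x : O) : G.Hg a (G.pr a x) := by simp [Hg, G.idem]

variable {G}

theorem Hg.pr {a : Γ} {x : O} (h : G.Hg a x) (b : Γ) : G.pr b x = if b = a then x else 0 := by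
  have := G.idem b a x
  rwa [h] at this

theorem Hg.ne {a b : Γ} {x : O} (h : G.Hg a x) (hb : b ≠ a) : G.pr b x = 0 := by
  rw [h.pr, if_neg hb]

theorem Hg.mul {a b : Γ} {x y : O} (h : G.Hg a x) (h' : G.Hg b y) : G.Hg (a + b) (x * y) := by
  have := G.mul a b x y
  rwa [h, h'] at this

theorem Hg.add {a : Γ} {x y : O} (h : G.Hg a x) (h' : G.Hg a y) : G.Hg a (x + y) := by
  unfold Hg at *; rw [map_add, h, h']

theorem Hg.neg {a : Γ} {x : O} (h : G.Hg a x) : G.Hg a (-x) := by
  unfold Hg at *; rw [map_neg, h]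

theorem Hg.sub {a : Γ} {x y : O} (h : G.Hg a x) (h' : G.Hg a y) : G.Hg a (x - y) := by
  unfold Hg at *; rw [map_sub, h, h']

theorem Hg.smul {a : Γ} {x : O} (h : G.Hg a x) (c : K) : G.Hg a (c • x) := by
  unfold Hg at *; rw [map_smul, h]

theorem Hg.zsmul {a : Γ} {x : O} (h : G.Hg a x) (c : ℤ) : G.Hg a (c • x) := by
  unfold Hg at *; rw [map_zsmul, h]

theorem Hg.nsmul {a : Γ} {x : O} (h : G.Hg a x) (c : ℕ) : G.Hg a (c • x) := by
  unfold Hg at *; rw [map_nsmul, h]

theorem Hg.sum {ι : Type*} {a : Γ} {s : Finset ι} {x : ι → O} (h : ∀ i ∈ s, G.Hg a (x i)) :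
    G.Hg a (∑ i ∈ s, x i) := by
  unfold Hg at *; rw [map_sum]; exact sum_congr rfl h

theorem Hg.cast {a b : Γ} {x : O} (h : G.Hg a x) (e : a = b) : G.Hg b x := e ▸ h

theorem Hg.pow {a : Γ} {x : O} (h : G.Hg a x) (n : ℕ) : G.Hg (n • a) (x ^ n) := by
  induction n with
  | zero => simpa [Hg] using G.one
  | succ n ih => rw [pow_succ, succ_nsmul]; exact ih.mul h

theorem Hg.prod {ι : Type*} {s : Finset ι} {a : ι → Γ} {x : ι → O}
    (h : ∀ i ∈ s, G.Hg (a i) (x i)) : G.Hg (∑ i ∈ s, a i) (∏ i ∈ s, x i) := by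
  classical
  induction s using Finset.induction_on with
  | empty => simpa [Hg] using G.one
  | insert i s hi ih =>
    rw [sum_insert hi, prod_insert hi]
    exact (h i (mem_insert_self _ _)).mul (ih fun j hj => h j (mem_insert_of_mem hj))

variable (G)

theorem hg_zero (a : Γ) : G.Hg a 0 := map_zero _

theorem hg_one : G.Hg 0 1 := G.one

theorem hg_alg (c : K) : G.Hg 0 (algebraMap K O c) := by
  rw [Algebra.algebraMap_eq_smul_one]; exact G.hg_one.smul c

theorem ind {P : O → Prop} (h0 : P 0) (ha : ∀ x y, P x → P y → P (x + y))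
    (hh : ∀ a x, G.Hg a x → P x) (x : O) : P x := by
  rw [← G.sum x]
  exact sum_induction _ P ha h0 fun a _ => hh a _ (G.hg_pr a x)

theorem ext {x y : O} (h : ∀ a, G.pr a x = G.pr a y) : x = y := by
  rw [← G.sum x, ← G.sum y]; exact sum_congr rfl fun a _ => h a

variable {G}

theorem Hg.pr_mul {a : Γ} {x : O} (h : G.Hg a x) (b : Γ) (y : O) :
    G.pr (a + b) (x * y) = x * G.pr b y := by
  conv_lhs => rw [← G.sum y, mul_sum, map_sum]
  rw [sum_eq_single b (fun c _ hc => (h.mul (G.hg_pr c y)).ne (by simpa using hc.symm))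
    (by simp)]
  exact h.mul (G.hg_pr b y)

theorem Hg.pr_mul' {a : Γ} {x : O} (h : G.Hg a x) (c : Γ) (y : O) :
    G.pr c (x * y) = x * G.pr (c - a) y := by
  rw [← h.pr_mul, add_sub_cancel]

theorem Hg.mul_pr {a : Γ} {x : O} (h : G.Hg a x) (c : Γ) (y : O) :
    G.pr c (y * x) = G.pr (c - a) y * x := by
  rw [mul_comm, h.pr_mul', mul_comm]

variable (G)

theorem pr_mul (c : Γ) (x y : O) : G.pr c (x * y) = ∑ a, G.pr a x * G.pr (c - a) y := by
  conv_lhs => rw [← G.sum x, sum_mul, map_sum]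
  exact sum_congr rfl fun a _ => (G.hg_pr a x).pr_mul' c y

/-- graded ideals -/
def Id (I : Ideal O) : Prop := ∀ a, ∀ x ∈ I, G.pr a x ∈ I

theorem id_top : G.Id ⊤ := fun _ _ _ => trivial

theorem id_bot : G.Id ⊥ := fun a x hx => by simp [(Submodule.mem_bot O).1 hx]

theorem id_span {S : Set O} (h : ∀ x ∈ S, ∀ a, G.pr a x ∈ Ideal.span S) : G.Id (Ideal.span S) := by
  intro a x hx
  induction hx using Submodule.span_induction generalizing a with
  | mem x hx => exact h x hx a
  | zero => simp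
  | add x y _ _ h1 h2 => rw [map_add]; exact add_mem (h1 a) (h2 a)
  | smul c x _ h1 =>
    rw [smul_eq_mul, G.pr_mul]
    exact sum_mem fun b _ => Ideal.mul_mem_left _ _ (h1 _)

theorem id_span_hg {S : Set O} (h : ∀ x ∈ S, ∃ a, G.Hg a x) : G.Id (Ideal.span S) :=
  G.id_span fun x hx a => by
    obtain ⟨b, hb⟩ := h x hx
    rw [hb.pr]
    split_ifs
    · exact Ideal.subset_span hx
    · exact zero_mem _

/-- the ideal of all components of the elements of `S` -/
def sp (S : Set O) : Ideal O := Ideal.span {y | ∃ a, ∃ x ∈ S, y = G.pr a x}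

theorem id_sp (S : Set O) : G.Id (G.sp S) :=
  G.id_span_hg fun _ ⟨a, x, _, e⟩ => ⟨a, e ▸ G.hg_pr a x⟩

theorem pr_mem_sp {S : Set O} {x : O} (hx : x ∈ S) (a : Γ) : G.pr a x ∈ G.sp S :=
  Ideal.subset_span ⟨a, x, hx, rfl⟩

variable {G}

theorem mem_of_pr {I : Ideal O} {x : O} (h : ∀ a, G.pr a x ∈ I) : x ∈ I := by
  rw [← G.sum x]; exact sum_mem fun a _ => h a

theorem mem_sp {S : Set O} {x : O} (hx : x ∈ S) : x ∈ G.sp S := mem_of_pr (G.pr_mem_sp hx)

theorem Id.sp_le {I : Ideal O} (h : G.Id I) {S : Set O} : G.sp S ≤ I ↔ ∀ x ∈ S, x ∈ I :=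
  ⟨fun h1 _ hx => h1 (mem_sp hx), fun h1 => Ideal.span_le.2 fun _ ⟨a, x, hx, e⟩ =>
    e ▸ h a x (h1 x hx)⟩


theorem Id.mul {I J : Ideal O} (h : G.Id I) (h' : G.Id J) : G.Id (I * J) := by
  intro a x hx
  refine Submodule.mul_induction_on hx (fun x hx y hy => ?_) fun x y h1 h2 => ?_
  · rw [G.pr_mul]
    exact sum_mem fun b _ => Ideal.mul_mem_mul (h b x hx) (h' _ y hy)
  · rw [map_add]; exact add_mem h1 h2

theorem Id.sup {I J : Ideal O} (h : G.Id I) (h' : G.Id J) : G.Id (I ⊔ J) := by
  intro a x hx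
  obtain ⟨y, hy, z, hz, rfl⟩ := Submodule.mem_sup.1 hx
  rw [map_add]
  exact add_mem (Ideal.mem_sup_left (h a y hy)) (Ideal.mem_sup_right (h' a z hz))

theorem Id.inf {I J : Ideal O} (h : G.Id I) (h' : G.Id J) : G.Id (I ⊓ J) :=
  fun a x hx => ⟨h a x hx.1, h' a x hx.2⟩

theorem Id.pow {I : Ideal O} (h : G.Id I) (n : ℕ) : G.Id (I ^ n) := by
  induction n with
  | zero => simpa using G.id_top
  | succ n ih => rw [pow_succ]; exact ih.mul h

theorem Id.iSup {ι : Type*} {I : ι → Ideal O} (h : ∀ i, G.Id (I i)) : G.Id (⨆ i, I i) := by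
  intro a x hx
  refine Submodule.iSup_induction I (motive := fun x => G.pr a x ∈ ⨆ i, I i) hx
    (fun i x hx => Submodule.mem_iSup_of_mem i (h i a x hx)) (by simp) fun x y h1 h2 => ?_
  rw [map_add]; exact add_mem h1 h2

variable {O' : Type*} [CommRing O'] [Algebra K O']

/-- graded homomorphisms -/
def Hom (G : Gr Γ K O) (G' : Gr Γ K O') (φ : O →ₐ[K] O') : Prop :=
  ∀ a x, φ (G.pr a x) = G'.pr a (φ x)


theorem Hom.hg {G' : Gr Γ K O'} {φ : O →ₐ[K] O'} (h : G.Hom G' φ) {a : Γ} {x : O}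
    (hx : G.Hg a x) : G'.Hg a (φ x) := by
  unfold Hg at *; rw [← h, hx]


theorem Hom.comp {O'' : Type*} [CommRing O''] [Algebra K O''] {G' : Gr Γ K O'} {G'' : Gr Γ K O''}
    {φ : O →ₐ[K] O'} {ψ : O' →ₐ[K] O''} (h' : G'.Hom G'' ψ) (h : G.Hom G' φ) :
    G.Hom G'' (ψ.comp φ) := fun a x => by
  rw [AlgHom.comp_apply, h, h', AlgHom.comp_apply]

theorem Hom.comap {G' : Gr Γ K O'} {φ : O →ₐ[K] O'} (h : G.Hom G' φ) {J : Ideal O'}
    (hJ : G'.Id J) : G.Id (J.comap φ) := fun a x hx => by
  rw [Ideal.mem_comap, h]; exact hJ a _ hx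

theorem Hom.map {G' : Gr Γ K O'} {φ : O →ₐ[K] O'} (h : G.Hom G' φ) {I : Ideal O}
    (hI : G.Id I) : G'.Id (I.map φ) :=
  G'.id_span fun _ ⟨x, hx, e⟩ a => by
    rw [← e, ← h]; exact Ideal.mem_map_of_mem _ (hI a x hx)

/-- the grading defined by a multiplicative basis -/
def ofBasis {ι : Type*} (b : Module.Basis ι K O) (deg : ι → Γ)
    (hm : ∀ i j, b i * b j ∈ Submodule.span K (b '' {k | deg k = deg i + deg j}))
    (h1 : (1 : O) ∈ Submodule.span K (b '' {k | deg k = 0})) : Gr Γ K O :=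
  have key : ∀ a, ∀ x ∈ Submodule.span K (b '' {k | deg k = a}),
      b.constr K (fun i => if deg i = a then b i else 0) x = x := fun a x hx => by
    induction hx using Submodule.span_induction with
    | mem x hx => obtain ⟨i, hi, rfl⟩ := hx; rw [b.constr_basis, if_pos (show deg i = a from hi)]
    | zero => simp
    | add x y _ _ h1 h2 => rw [map_add, h1, h2]
    | smul c x _ h1 => rw [map_smul, h1]
  { pr a := b.constr K fun i => if deg i = a then b i else 0
    sum x := by
      have : (∑ a, b.constr K fun i => if deg i = a then b i else 0) = LinearMap.id :=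
        b.ext fun i => by simp [LinearMap.sum_apply]
      simpa [LinearMap.sum_apply] using LinearMap.congr_fun this x
    idem a c x := by
      have : (b.constr K fun i => if deg i = a then b i else 0) ∘ₗ
          (b.constr K fun i => if deg i = c then b i else 0) =
          if a = c then b.constr K fun i => if deg i = c then b i else 0 else 0 :=
        b.ext fun i => by
          by_cases h : a = c <;> by_cases h' : deg i = c <;> simp [h, h', Ne.symm]
      have h2 := LinearMap.congr_fun this x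
      split_ifs at h2 ⊢ <;> simpa using h2
    mul a c x y := by
      have : ((LinearMap.mul K O).compl₁₂ (b.constr K fun i => if deg i = a then b i else 0)
          (b.constr K fun i => if deg i = c then b i else 0)).compr₂
            (b.constr K fun i => if deg i = a + c then b i else 0) =
          (LinearMap.mul K O).compl₁₂ (b.constr K fun i => if deg i = a then b i else 0)
          (b.constr K fun i => if deg i = c then b i else 0) :=
        b.ext fun i => b.ext fun j => by
          simp only [LinearMap.compr₂_apply, LinearMap.compl₁₂_apply, LinearMap.mul_apply',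
            Module.Basis.constr_basis]
          split_ifs with h h'
          · exact key _ _ (h ▸ h' ▸ hm i j)
          all_goals simp
      exact LinearMap.congr_fun (LinearMap.congr_fun this x) y
    one := key _ _ h1 }

theorem ofBasis_pr {ι : Type*} (b : Module.Basis ι K O) (deg : ι → Γ) (hm h1) (a : Γ) (i : ι) :
    (ofBasis b deg hm h1).pr a (b i) = if deg i = a then b i else 0 := b.constr_basis _ _ _

theorem ofBasis_hg {ι : Type*} (b : Module.Basis ι K O) (deg : ι → Γ) (hm h1) (i : ι) :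
    (ofBasis b deg hm h1).Hg (deg i) (b i) := by rw [Hg, ofBasis_pr, if_pos rfl]

end gen

end Gr

/-- the grading group -/
abbrev Gm (p : ℕ) := (ZMod 2 × ZMod 2) × ZMod p

/-- the sign bicharacter -/
def sg {p : ℕ} (a b : Gm p) : ℤ := if a.1.2 * b.1.1 = 0 then 1 else -1

/-- the degree of the potential -/
def g0 (p : ℕ) : Gm p := (0, 1)

theorem sg_aux : ∀ x y z : ZMod 2, (if (x + y) * z = 0 then (1 : ℤ) else -1) =
    (if x * z = 0 then 1 else -1) * if y * z = 0 then 1 else -1 := by decide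

theorem sg_add_left {p : ℕ} (a b c : Gm p) : sg (a + b) c = sg a c * sg b c := sg_aux _ _ _

theorem sg_add_right {p : ℕ} (a b c : Gm p) : sg a (b + c) = sg a b * sg a c := by
  simp only [sg, mul_comm a.1.2]
  exact sg_aux b.1.1 c.1.1 a.1.2

theorem sg_zero_left {p : ℕ} (a : Gm p) : sg 0 a = 1 := by simp [sg]

theorem sg_zero_right {p : ℕ} (a : Gm p) : sg a 0 = 1 := by simp [sg]

theorem sg_sq {p : ℕ} (a b : Gm p) : sg a b * sg a b = 1 := by unfold sg; split_ifs <;> rfl

theorem sg_symm {p : ℕ} {a b : Gm p} (h : (a + b).1 = 0) : sg a b = sg b a := by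
  have : ∀ x y : ZMod 2 × ZMod 2, x + y = 0 → x.2 * y.1 = y.2 * x.1 := by decide
  unfold sg
  rw [this a.1 b.1 h]

variable {p : ℕ} [NeZero p] {K O : Type*} [CommRing K] [CommRing O] [Algebra K O]

/-- the twisted ring -/
def Tw (_G : Gr (Gm p) K O) : Type _ := O

namespace Tw

variable (G : Gr (Gm p) K O)

instance : AddCommGroup (Tw G) := inferInstanceAs (AddCommGroup O)
instance : Module K (Tw G) := inferInstanceAs (Module K O)

/-- the twisted product on `O` -/
def tm : O →ₗ[K] O →ₗ[K] O :=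
  ∑ a, ∑ b, sg a b • (LinearMap.mul K O).compl₁₂ (G.pr a) (G.pr b)

theorem tm_apply (x y : O) : tm G x y = ∑ a, ∑ b, sg a b • (G.pr a x * G.pr b y) := by
  simp [tm, LinearMap.sum_apply]

variable {G}

theorem tm_hg {a b : Gm p} {x y : O} (h : G.Hg a x) (h' : G.Hg b y) :
    tm G x y = sg a b • (x * y) := by
  rw [tm_apply, sum_eq_single a (fun c _ hc => by simp [h.ne hc]) (by simp),
    sum_eq_single b (fun c _ hc => by simp [h'.ne hc]) (by simp), h, h']

theorem tm_assoc (x y z : O) : tm G (tm G x y) z = tm G x (tm G y z) := by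
  refine G.ind (P := fun x => tm G (tm G x y) z = tm G x (tm G y z)) (by simp)
    (fun _ _ h1 h2 => by simp [h1, h2]) (fun a x hx => ?_) x
  refine G.ind (P := fun y => tm G (tm G x y) z = tm G x (tm G y z)) (by simp)
    (fun _ _ h1 h2 => by simp [h1, h2]) (fun b y hy => ?_) y
  refine G.ind (P := fun z => tm G (tm G x y) z = tm G x (tm G y z)) (by simp)
    (fun _ _ h1 h2 => by simp [h1, h2]) (fun c z hz => ?_) z
  rw [tm_hg hx hy, tm_hg hy hz, map_zsmul, map_zsmul, LinearMap.smul_apply, tm_hg (hx.mul hy) hz,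
    tm_hg hx (hy.mul hz), smul_smul, smul_smul, sg_add_left, sg_add_right, mul_assoc x]
  congr 1
  ring

theorem one_tm (x : O) : tm G 1 x = x :=
  G.ind (P := fun x => tm G 1 x = x) (by simp) (fun _ _ h1 h2 => by simp [h1, h2])
    (fun a x hx => by rw [tm_hg G.hg_one hx, sg_zero_left, one_smul, one_mul]) x

theorem tm_one (x : O) : tm G x 1 = x :=
  G.ind (P := fun x => tm G x 1 = x) (by simp) (fun _ _ h1 h2 => by simp [h1, h2])
    (fun a x hx => by rw [tm_hg hx G.hg_one, sg_zero_right, one_smul, mul_one]) x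

variable (G)

instance : Ring (Tw G) :=
  { (inferInstance : AddCommGroup (Tw G)) with
    mul x y := tm G x y
    one := (1 : O)
    mul_assoc := tm_assoc (G := G)
    one_mul := one_tm (G := G)
    mul_one := tm_one (G := G)
    left_distrib x := map_add (tm G x)
    right_distrib x y z := LinearMap.congr_fun (map_add (tm G) x y) z
    zero_mul x := LinearMap.congr_fun (map_zero (tm G)) x
    mul_zero x := map_zero (tm G x) }

instance : Algebra K (Tw G) := Algebra.ofModule
  (fun c x y => LinearMap.congr_fun (map_smul (tm G) c x) y) fun c x y => map_smul (tm G x) c y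

/-- the underlying element of `O` -/
def o : Tw G ≃ₗ[K] O := LinearEquiv.refl K O

/-- the element of the twisted ring -/
abbrev up : O ≃ₗ[K] Tw G := (o G).symm

variable {G}

theorem o_mul (x y : Tw G) : o G (x * y) = tm G (o G x) (o G y) := rfl

@[simp] theorem o_one : o G 1 = 1 := rfl

@[simp] theorem up_one : up G 1 = 1 := rfl

theorem o_mul_hg {a b : Gm p} {x y : Tw G} (h : G.Hg a (o G x)) (h' : G.Hg b (o G y)) :
    o G (x * y) = sg a b • (o G x * o G y) := tm_hg h h'

theorem up_mul_hg {a b : Gm p} {x y : O} (h : G.Hg a x) (h' : G.Hg b y) :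
    up G x * up G y = sg a b • up G (x * y) := tm_hg (G := G) h h'

theorem ind {P : Tw G → Prop} (h0 : P 0) (ha : ∀ x y, P x → P y → P (x + y))
    (hh : ∀ a x, G.Hg a (o G x) → P x) (x : Tw G) : P x := G.ind (P := P) h0 ha hh x

theorem o_mul_mem {I J : Ideal O} (hI : G.Id I) (hJ : G.Id J) {x y : Tw G} (hx : o G x ∈ I)
    (hy : o G y ∈ J) : o G (x * y) ∈ I * J := by
  rw [o_mul, tm_apply]
  exact sum_mem fun a _ => sum_mem fun b _ =>
    zsmul_mem (Ideal.mul_mem_mul (hI a _ hx) (hJ b _ hy)) _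

theorem mem_left {I : Ideal O} (hI : G.Id I) (x : Tw G) {y : Tw G} (hy : o G y ∈ I) :
    o G (x * y) ∈ I := by simpa using o_mul_mem G.id_top hI (x := x) trivial hy

theorem mem_right {I : Ideal O} (hI : G.Id I) {x : Tw G} (y : Tw G) (hx : o G x ∈ I) :
    o G (x * y) ∈ I := by simpa using o_mul_mem hI G.id_top (y := y) hx trivial

theorem pow_mem {I : Ideal O} (hI : G.Id I) {x : Tw G} (hx : o G x ∈ I) (n : ℕ) :
    o G (x ^ n) ∈ I ^ n := by
  induction n with
  | zero => simp
  | succ n ih => rw [pow_succ, pow_succ]; exact o_mul_mem (hI.pow n) hI ih hx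

theorem isNilpotent {m : Ideal O} (hI : G.Id m) (hm : IsNilpotent m) {x : Tw G}
    (hx : o G x ∈ m) : IsNilpotent x := by
  obtain ⟨n, hn⟩ := hm
  have := pow_mem hI hx n
  rw [hn] at this
  exact ⟨n, (o G).injective (by simpa using this)⟩

/-- `1 + x` as a unit -/
def un {m : Ideal O} (hI : G.Id m) (hm : IsNilpotent m) (x : Tw G) (hx : o G x ∈ m) : (Tw G)ˣ :=
  (isNilpotent hI hm hx).isUnit_one_add.unit

@[simp] theorem val_un {m : Ideal O} (hI : G.Id m) (hm : IsNilpotent m) (x : Tw G)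
    (hx : o G x ∈ m) : (un hI hm x hx : Tw G) = 1 + x := rfl

/-- the congruence subgroup `1 + I` -/
def U {I : Ideal O} (hI : G.Id I) : Subgroup (Tw G)ˣ where
  carrier := {g | o G ((g : Tw G) - 1) ∈ I}
  one_mem' := by simp
  mul_mem' {g h} hg hh := by
    have : ((g * h : (Tw G)ˣ) : Tw G) - 1 = (g - 1) * h + (h - 1) := by
      rw [Units.val_mul]; noncomm_ring
    rw [Set.mem_ofPred_eq, this, map_add]
    exact add_mem (mem_right hI _ hg) hh
  inv_mem' {g} hg := by
    have : ((g⁻¹ : (Tw G)ˣ) : Tw G) - 1 = -((g - 1) * (g⁻¹ : (Tw G)ˣ)) := by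
      rw [sub_mul, Units.mul_inv]; noncomm_ring
    rw [Set.mem_ofPred_eq, this, map_neg]
    exact neg_mem (mem_right hI _ hg)

theorem mem_U {I : Ideal O} (hI : G.Id I) {g : (Tw G)ˣ} :
    g ∈ U hI ↔ o G ((g : Tw G) - 1) ∈ I := Iff.rfl

theorem un_mem {m I : Ideal O} (hI : G.Id m) (hm : IsNilpotent m) (x : Tw G) (hx : o G x ∈ m)
    (hJ : G.Id I) (h : o G x ∈ I) : un hI hm x hx ∈ U hJ := by simpa [mem_U] using h

variable (G)

/-- the degree derivation -/
def D : Tw G →ₗ[K] Tw G := ∑ a : Gm p, a.2.val • G.pr a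

/-- the trace -/
def lam : Tw G →ₗ[K] O := G.pr (g0 p)

variable {G}

theorem o_D (x : Tw G) : o G (D G x) = ∑ a : Gm p, a.2.val • G.pr a (o G x) := by
  change (∑ a : Gm p, a.2.val • G.pr a) (o G x) = _
  simp only [LinearMap.sum_apply, LinearMap.smul_apply]

theorem lam_eq (x : Tw G) : lam G x = G.pr (g0 p) (o G x) := rfl

theorem D_hg {a : Gm p} {x : Tw G} (h : G.Hg a (o G x)) : D G x = a.2.val • x := by
  apply (o G).injective
  rw [o_D, sum_eq_single a (fun c _ hc => by simp [h.ne hc]) (by simp), h, map_nsmul]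

theorem D_one : D G 1 = 0 := by rw [D_hg (a := 0) (x := 1) G.hg_one]; simp

theorem D_mem {I : Ideal O} (hI : G.Id I) {x : Tw G} (hx : o G x ∈ I) : o G (D G x) ∈ I := by
  rw [o_D]; exact sum_mem fun a _ => nsmul_mem (hI a _ hx) _

theorem D_mem_U {I : Ideal O} (hI : G.Id I) {g : (Tw G)ˣ} (hg : g ∈ U hI) :
    o G (D G g) ∈ I := by
  have := D_mem hI hg
  rwa [map_sub, D_one, sub_zero] at this

theorem lam_mem {I : Ideal O} (hI : G.Id I) {x : Tw G} (hx : o G x ∈ I) : lam G x ∈ I := hI _ _ hx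

theorem lam_hg (x : Tw G) : G.Hg (g0 p) (lam G x) := G.hg_pr _ _

theorem val_add_smul (hp : (p : O) = 0) (a b : ZMod p) (x : O) :
    (a + b).val • x = a.val • x + b.val • x := by
  rw [← add_smul, ZMod.val_add]
  conv_rhs => rw [← Nat.mod_add_div (a.val + b.val) p, add_smul, mul_smul, nsmul_eq_mul p, hp]
  simp

theorem D_mul (hp : (p : O) = 0) (x y : Tw G) : D G (x * y) = D G x * y + x * D G y := by
  refine ind (P := fun x => D G (x * y) = D G x * y + x * D G y) (by simp)
    (fun _ _ h1 h2 => by simp only [add_mul, map_add, h1, h2]; abel) (fun a x hx => ?_) x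
  refine ind (P := fun y => D G (x * y) = D G x * y + x * D G y) (by simp)
    (fun _ _ h1 h2 => by simp only [mul_add, map_add, h1, h2]; abel) (fun b y hy => ?_) y
  have h : G.Hg (a + b) (o G (x * y)) := by rw [o_mul_hg hx hy]; exact (hx.mul hy).zsmul _
  rw [D_hg h, D_hg hx, D_hg hy, smul_mul_assoc, mul_smul_comm]
  exact val_add_smul hp a.2 b.2 _

theorem lam_comm (x y : Tw G) : lam G (x * y) = lam G (y * x) := by
  refine ind (P := fun x => lam G (x * y) = lam G (y * x)) (by simp)
    (fun _ _ h1 h2 => by simp only [add_mul, mul_add, map_add, h1, h2]) (fun a x hx => ?_) x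
  refine ind (P := fun y => lam G (x * y) = lam G (y * x)) (by simp)
    (fun _ _ h1 h2 => by simp only [add_mul, mul_add, map_add, h1, h2]) (fun b y hy => ?_) y
  rw [lam_eq, lam_eq, o_mul_hg hx hy, o_mul_hg hy hx, map_zsmul, map_zsmul, mul_comm (o G y),
    (hx.mul hy).pr]
  split_ifs with h
  · rw [sg_symm (by rw [← h]; rfl)]
  · simp

theorem lam_D [Fact (1 < p)] (x : Tw G) : lam G (D G x) = lam G x := by
  refine ind (P := fun x => lam G (D G x) = lam G x) (by simp)
    (fun _ _ h1 h2 => by simp only [map_add, h1, h2]) (fun a x hx => ?_) x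
  rw [D_hg hx, map_nsmul, lam_eq, hx.pr]
  split_ifs with h
  · rw [← h, g0, ZMod.val_one, one_smul]
  · simp

/-- the pairing in components -/
theorem lam_mul (x y : Tw G) :
    lam G (x * y) = ∑ a, sg a (g0 p - a) • (G.pr a (o G x) * G.pr (g0 p - a) (o G y)) := by
  rw [lam_eq, o_mul, tm_apply, map_sum]
  refine sum_congr rfl fun a _ => ?_
  rw [map_sum, sum_eq_single (g0 p - a) (fun b _ hb => ?_) (by simp), map_zsmul]
  · congr 1
    exact ((G.hg_pr a _).mul (G.hg_pr _ _)).cast (by simp)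
  · rw [map_zsmul, ((G.hg_pr a _).mul (G.hg_pr b _)).ne, smul_zero]
    exact fun h => hb (by rw [h]; simp)

variable {O' : Type*} [CommRing O'] [Algebra K O'] {G' : Gr (Gm p) K O'} {φ : O →ₐ[K] O'}

/-- functoriality -/
def map (h : G.Hom G' φ) : Tw G →ₐ[K] Tw G' :=
  AlgHom.ofLinearMap (R := K) (A := Tw G) (B := Tw G') φ.toLinearMap (map_one φ) fun x y => by
    change φ (tm G (o G x) (o G y)) = tm G' (φ (o G x)) (φ (o G y))
    simp only [tm_apply, map_sum, map_zsmul, map_mul, h _ _]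

theorem o_map (h : G.Hom G' φ) (x : Tw G) : o G' (map h x) = φ (o G x) := rfl


theorem map_D (h : G.Hom G' φ) (x : Tw G) : map h (D G x) = D G' (map h x) := by
  apply (o G').injective
  simp only [o_map, o_D, map_sum, map_nsmul, h _ _]

theorem lam_map (h : G.Hom G' φ) (x : Tw G) : lam G' (map h x) = φ (lam G x) := (h _ _).symm

end Tw

end Crest.Agent.N255.Cs

end
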