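import Mathlib
import Crest.Agent.N255.Cs.Tw

-- ▼ part N255/Cs/Alg
section

/-!
# Row 255 (helper31): the off-shell Chern-Simons cochain, exact identities
-/

set_option autoImplicit false

namespace Crest.Agent.N255.Cs

/-- a ring with a derivation and a trace of weight one -/
structure TD (R A : Type*) [Ring R] [AddCommGroup A] where
  D : R →+ R
  lam : R →+ A
  D_mul : ∀ x y, D (x * y) = D x * y + x * D y
  lam_comm : ∀ x y, lam (x * y) = lam (y * x)
  lam_D : ∀ x, lam (D x) = lam x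

variable {R A V : Type*} [Ring R] [AddCommGroup A]

/-- curvature -/
def fc (g : V → V → Rˣ) (a b c : V) : R := g a b * g b c - g a c

/-- twisted coboundary of a variation -/
def dg (g : V → V → Rˣ) (h : V → V → R) (a b c : V) : R := h a b * g b c + g a b * h b c - h a c

/-- coboundary of a 1-cochain -/
def d1 {B : Type*} [AddCommGroup B] (h : V → V → B) (a b c : V) : B := h b c - h a c + h a b

/-- coboundary of a 2-cochain -/
def d2 {B : Type*} [AddCommGroup B] (h : V → V → V → B) (a b c d : V) : B :=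
  h b c d - h a c d + h a b d - h a b c

/-- coboundary of a 3-cochain -/
def d3 {B : Type*} [AddCommGroup B] (h : V → V → V → V → B) (a b c d e : V) : B :=
  h b c d e - h a c d e + h a b d e - h a b c e + h a b c d


/-- difference of two connections -/
def df (g' g : V → V → Rˣ) (a b : V) : R := g' a b - g a b


theorem d2_fc (g : V → V → Rˣ) (a b c d : V) :
    d2 (fc g) a b c d = fc g a b c * (g c d - 1) - (g a b - 1) * fc g b c d := by
  unfold d2 fc; noncomm_ring

theorem inv_fc (g : V → V → Rˣ) (a c d : V) :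
    ↑(g a c)⁻¹ * fc g a c d * ↑(g a d)⁻¹ = (g c d : R) * ↑(g a d)⁻¹ - ↑(g a c)⁻¹ := by
  rw [fc, mul_sub, sub_mul, Units.inv_mul_cancel_left, Units.mul_inv_cancel_right]

theorem inv_fc' (g : V → V → Rˣ) (a c d : V) :
    ↑(g a d)⁻¹ * fc g a c d * ↑(g c d)⁻¹ = ↑(g a d)⁻¹ * (g a c : R) - ↑(g c d)⁻¹ := by
  rw [fc, mul_sub, sub_mul, Units.inv_mul, one_mul, ← mul_assoc, Units.mul_inv_cancel_right]

theorem inv_df (g' g : V → V → Rˣ) (a b : V) :
    ↑(g a b)⁻¹ * df g' g a b * ↑(g' a b)⁻¹ = (↑(g a b)⁻¹ : R) - ↑(g' a b)⁻¹ := by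
  rw [df, mul_sub, sub_mul, Units.inv_mul, one_mul, Units.mul_inv_cancel_right]

theorem fc_sub (g' g : V → V → Rˣ) (a b c : V) :
    fc g' a b c = fc g a b c + dg g (df g' g) a b c + df g' g a b * df g' g b c := by
  unfold fc dg df; noncomm_ring

theorem dg_eq (g : V → V → Rˣ) (h : V → V → R) (a b c : V) :
    dg g h a b c = d1 h a b c + h a b * (g b c - 1) + (g a b - 1) * h b c := by
  unfold dg d1; noncomm_ring

theorem fc_eq (g : V → V → Rˣ) (a b c : V) : fc g a b c =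
    d1 (fun x y => (g x y : R) - 1) a b c + (g a b - 1) * (g b c - 1) := by
  unfold fc d1; noncomm_ring



namespace TD

variable (T : TD R A)

/-- the Chern-Simons cochain -/
def cs (g : V → V → Rˣ) (a b c d : V) : A := T.lam (T.D (g a b) * fc g b c d * ↑(g a d)⁻¹)

/-- its coboundary -/
def P (g : V → V → Rˣ) (a b c d e : V) : A :=
  T.lam (T.D (fc g a b c) * fc g c d e * ↑(g a e)⁻¹)
    - T.lam (T.D (g a b) * fc g b c d * (↑(g a d)⁻¹ * fc g a d e * ↑(g a e)⁻¹))
    - T.lam (T.D (g b c) * fc g c d e * (↑(g a e)⁻¹ * fc g a b e * ↑(g b e)⁻¹))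

/-- boundary term of the variation -/
def be (g : V → V → Rˣ) (h : V → V → R) (a b c : V) : A :=
  T.lam (T.D (g a b) * h b c * ↑(g a c)⁻¹)

/-- cup-one term -/
def ka (f : V → V → V → R) (h : V → V → R) (a b c : V) : A := T.lam (h a c * T.D (f a b c))

/-- boundary term of a gauge transformation -/
def th (γ : V → Rˣ) (g : V → V → Rˣ) (a b c : V) : A :=
  T.lam (↑(γ a)⁻¹ * T.D (γ a) * fc g a b c * ↑(g a c)⁻¹)

theorem D_one : T.D 1 = 0 := by simpa using T.D_mul 1 1


theorem D_fc (g : V → V → Rˣ) (a b c : V) :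
    T.D (g a c) = T.D (g a b) * g b c + g a b * T.D (g b c) - T.D (fc g a b c) := by
  rw [fc, map_sub, T.D_mul]; abel

theorem lam_DD (x y : R) : T.lam (T.D x * y) + T.lam (x * T.D y) = T.lam (x * y) := by
  rw [← map_add, ← T.D_mul, T.lam_D]

theorem lam_cyc (u x : R) {y : R} (h : y = u * x - x * u) : T.lam y = 0 := by
  rw [h, map_sub, T.lam_comm, sub_self]

/-- (P) -/
theorem d3_cs (g : V → V → Rˣ) (a b c d e : V) : d3 (T.cs g) a b c d e = T.P g a b c d e := by
  rw [← sub_eq_zero]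
  simp only [d3, cs, P, inv_fc, inv_fc', T.D_fc g a b c, ← map_sub, ← map_add]
  refine T.lam_cyc (T.D (g b c) * fc g c d e * ↑(g a e)⁻¹) (g a b) ?_
  generalize T.D (fc g a b c) = x
  unfold fc
  noncomm_ring

theorem d2_be (g : V → V → Rˣ) (h : V → V → R) (a b c d : V) : d2 (T.be g h) a b c d =
    T.lam (T.D (fc g a b c) * h c d * ↑(g a d)⁻¹) - T.lam (T.D (g a b) * dg g h b c d * ↑(g a d)⁻¹)
      - T.lam (T.D (g b c) * h c d * (↑(g a d)⁻¹ * fc g a b d * ↑(g b d)⁻¹))
      + T.lam (T.D (g a b) * h b c * (↑(g a c)⁻¹ * fc g a c d * ↑(g a d)⁻¹)) := by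
  rw [← sub_eq_zero]
  simp only [d2, be, inv_fc, inv_fc', T.D_fc g a b c, ← map_sub, ← map_add]
  refine T.lam_cyc (T.D (g b c) * h c d * ↑(g a d)⁻¹) (g a b) ?_
  unfold dg
  noncomm_ring

/-- the error of the variation formula -/
def Ve (g' g : V → V → Rˣ) (a b c d : V) : A :=
  T.lam (T.D (g a b) * (df g' g b c * df g' g c d) * ↑(g a d)⁻¹)
    - T.lam (T.D (g a b) * fc g' b c d * (↑(g a d)⁻¹ * df g' g a d * ↑(g' a d)⁻¹))
    - T.lam (T.D (g b c) * df g' g c d * (↑(g a d)⁻¹ * fc g a b d * ↑(g b d)⁻¹))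
    + T.lam (T.D (g a b) * df g' g b c * (↑(g a c)⁻¹ * fc g a c d * ↑(g a d)⁻¹))

/-- (V) -/
theorem var (g' g : V → V → Rˣ) (a b c d : V) :
    T.cs g' a b c d - T.cs g a b c d + d2 (T.be g (df g' g)) a b c d =
      T.lam (T.D (df g' g a b) * fc g' b c d * ↑(g' a d)⁻¹)
        + T.lam (T.D (fc g a b c) * df g' g c d * ↑(g a d)⁻¹) + T.Ve g' g a b c d := by
  have h1 : T.D (g' a b) = T.D (g a b) + T.D (df g' g a b) := by rw [df, map_sub]; abel
  rw [← sub_eq_zero, d2_be]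
  simp only [cs, Ve, inv_df, h1, ← map_sub T.lam, ← map_add T.lam]
  rw [fc_sub g' g]
  refine T.lam_cyc 0 0 ?_
  noncomm_ring

theorem d2_ka (f : V → V → V → R) (h : V → V → R) (a b c d : V) : d2 (T.ka f h) a b c d =
    T.lam (T.D (f a b c) * h c d) - T.lam (h a b * T.D (f b c d))
      + T.lam (d1 h a b d * T.D (f b c d)) - T.lam (d1 h a c d * T.D (f a b c))
      + T.lam (h a d * T.D (d2 f a b c d)) := by
  rw [← sub_eq_zero, T.lam_comm]
  simp only [d2, ka, d1, map_sub T.D, map_add T.D, ← map_sub T.lam, ← map_add T.lam]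
  refine T.lam_cyc 0 0 ?_
  noncomm_ring

/-- the symbol of the variation -/
theorem swap (f : V → V → V → R) (h : V → V → R) (a b c d : V) :
    T.lam (T.D (h a b) * f b c d) + T.lam (T.D (f a b c) * h c d) =
      T.lam (h a b * f b c d) + d2 (T.ka f h) a b c d
        - T.lam (d1 h a b d * T.D (f b c d)) + T.lam (d1 h a c d * T.D (f a b c))
        - T.lam (h a d * T.D (d2 f a b c d)) := by
  rw [d2_ka, ← T.lam_DD (h a b)]; abel

/-- the error of the gauge formula -/
def Ge (γ : V → Rˣ) (g : V → V → Rˣ) (a b c d : V) : A :=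
  T.lam (↑(γ a)⁻¹ * T.D (γ a) * fc g a b c * (↑(g a c)⁻¹ * fc g a c d * ↑(g a d)⁻¹))
    - T.lam (↑(γ b)⁻¹ * T.D (γ b) * fc g b c d * (↑(g a d)⁻¹ * fc g a b d * ↑(g b d)⁻¹))



end TD

end Crest.Agent.N255.Cs
end

-- ▼ part N255/Cs/Mem

/-!
# Row 255 (helper31): the Chern-Simons cochain of the twisted ring, ideal control
-/

set_option autoImplicit false
open Finset

noncomputable section

namespace Crest.Agent.N255.Cs

open Tw

variable {p : ℕ} [hpp : Fact p.Prime] {K O V : Type*} [CommRing K] [CommRing O] [Algebra K O]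
  {G : Gr (Gm p) K O}

/-- membership of an element of the twisted ring in an ideal of `O` -/
abbrev In (I : Ideal O) (x : Tw G) : Prop := o G x ∈ I

/-- the derivation and the trace of the twisted ring -/
def td (G : Gr (Gm p) K O) [h : Fact ((p : O) = 0)] : TD (Tw G) O where
  D := (D G).toAddMonoidHom
  lam := (lam G).toAddMonoidHom
  D_mul := D_mul h.out
  lam_comm := lam_comm
  lam_D := lam_D

variable [Fact ((p : O) = 0)]

theorem td_D (x : Tw G) : (td G).D x = D G x := rfl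

theorem td_lam (x : Tw G) : (td G).lam x = lam G x := rfl

variable {m I J H : Ideal O} {g g' γ' : V → V → (Tw G)ˣ} {a b c d e : V}

omit [Fact ((p : O) = 0)] in
theorem lam2 (hI : G.Id I) (hJ : G.Id J) {x y : Tw G} (hx : In I x) (hy : In J y) (u : Tw G) :
    lam G (x * y * u) ∈ I * J :=
  lam_mem (hI.mul hJ) (mem_right (hI.mul hJ) u (o_mul_mem hI hJ hx hy))

omit [Fact ((p : O) = 0)] in
theorem lam3 (hI : G.Id I) (hJ : G.Id J) (hH : G.Id H) {x y z : Tw G} (hx : In I x) (hy : In J y)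
    (hz : In H z) : lam G (x * y * z) ∈ I * J * H :=
  lam_mem ((hI.mul hJ).mul hH) (o_mul_mem (hI.mul hJ) hH (o_mul_mem hI hJ hx hy) hz)

omit [Fact ((p : O) = 0)] in
theorem in_conj (hI : G.Id I) {x : Tw G} (hx : In I x) (u v : Tw G) : In I (u * x * v) :=
  mem_right hI v (mem_left hI u hx)

omit [Fact ((p : O) = 0)] in
theorem In.add {x y : Tw G} (hx : In I x) (hy : In I y) : In I (x + y) := by
  rw [In, map_add]; exact add_mem hx hy

omit [Fact ((p : O) = 0)] in
theorem In.sub {x y : Tw G} (hx : In I x) (hy : In I y) : In I (x - y) := by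
  rw [In, map_sub]; exact sub_mem hx hy

omit [Fact ((p : O) = 0)] in
theorem In.neg {x : Tw G} (hx : In I x) : In I (-x) := by
  rw [In, map_neg]; exact neg_mem hx

omit [Fact ((p : O) = 0)] in
theorem In.mono {x : Tw G} (hx : In I x) (h : I ≤ J) : In J x := h hx

omit [Fact ((p : O) = 0)] in
theorem lam_unit (hm : G.Id m) (hI : G.Id I) {x : Tw G} (hx : In I x) {u : (Tw G)ˣ}
    (hu : u ∈ U hm) : lam G (x * ↑u⁻¹) - lam G x ∈ m * I := by
  have : x * ↑u⁻¹ - x = x * (↑u⁻¹ - 1) := by rw [mul_sub, mul_one]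
  rw [← map_sub, this, mul_comm m]
  exact lam_mem (hI.mul hm) (o_mul_mem hI hm hx (inv_mem hu))

omit [Fact ((p : O) = 0)] in
theorem fc_mem_of_U (hI : G.Id I) (h1 : g a b ∈ U hI) (h2 : g b c ∈ U hI) (h3 : g a c ∈ U hI) :
    In I (fc g a b c) := by
  rw [fc_eq, d1]
  exact In.add (In.add (In.sub h2 h3) h1) (mem_right hI _ h1)

omit [Fact ((p : O) = 0)] in
/-- Bianchi: the curvature is a cocycle modulo `m I` -/
theorem d2_fc_mem (hm : G.Id m) (hI : G.Id I) (h1 : g a b ∈ U hm) (h2 : g c d ∈ U hm)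
    (f1 : In I (fc g a b c)) (f2 : In I (fc g b c d)) : In (m * I) (d2 (fc g) a b c d) := by
  rw [d2_fc]
  exact In.sub (mul_comm I m ▸ o_mul_mem hI hm f1 h2) (o_mul_mem hm hI h1 f2)

omit [Fact ((p : O) = 0)] in
theorem fc_sub_mem (hm : G.Id m) (hH : G.Id H) (h1 : g a b ∈ U hm) (h2 : g b c ∈ U hm)
    (k1 : In H (df g' g a b)) (k2 : In H (df g' g b c)) :
    In (m * H ⊔ H * H) (fc g' a b c - fc g a b c - d1 (df g' g) a b c) := by
  have : fc g' a b c - fc g a b c - d1 (df g' g) a b c = df g' g a b * (g b c - 1) +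
      (g a b - 1) * df g' g b c + df g' g a b * df g' g b c := by rw [fc_sub g' g, dg_eq]; abel
  rw [this]
  exact In.add (In.mono (In.add (mul_comm H m ▸ o_mul_mem hH hm k1 h2) (o_mul_mem hm hH h1 k2))
    le_sup_left) (In.mono (o_mul_mem hH hH k1 k2) le_sup_right)

omit [Fact ((p : O) = 0)] in
theorem fc_sub_mem' (hH : G.Id H) (k1 : In H (df g' g a b)) (k2 : In H (df g' g b c))
    (k3 : In H (df g' g a c)) : In H (fc g' a b c - fc g a b c) := by
  have : fc g' a b c - fc g a b c = df g' g a b * g b c + g a b * df g' g b c - df g' g a c +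
      df g' g a b * df g' g b c := by rw [fc_sub g' g, dg]; abel
  rw [this]
  exact In.add (In.sub (In.add (mem_right hH _ k1) (mem_left hH _ k2)) k3) (mem_left hH _ k2)

theorem cs_hg (g : V → V → (Tw G)ˣ) (a b c d : V) : G.Hg (g0 p) ((td G).cs g a b c d) := lam_hg _


theorem cs_mem (hm : G.Id m) (hI : G.Id I) (h : g a b ∈ U hm) (f : In I (fc g b c d)) :
    (td G).cs g a b c d ∈ m * I := lam2 hm hI (D_mem_U hm h) f _

theorem be_mem (hm : G.Id m) (hH : G.Id H) (h : g a b ∈ U hm) {k : V → V → Tw G}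
    (f : In H (k b c)) : (td G).be g k a b c ∈ m * H := lam2 hm hH (D_mem_U hm h) f _

theorem ka_mem (hI : G.Id I) (hH : G.Id H) {f : V → V → V → Tw G} {k : V → V → Tw G}
    (h1 : In I (f a b c)) (h2 : In H (k a c)) : (td G).ka f k a b c ∈ H * I :=
  lam_mem (hH.mul hI) (o_mul_mem hH hI h2 (D_mem hI h1))


/-- (P): `δ cs ∈ I²` -/
theorem P_mem (hI : G.Id I) (f1 : In I (fc g a b c)) (f2 : In I (fc g c d e))
    (f3 : In I (fc g b c d)) (f4 : In I (fc g a d e)) (f5 : In I (fc g a b e)) :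
    (td G).P g a b c d e ∈ I * I := by
  refine sub_mem (sub_mem (lam2 hI hI (D_mem hI f1) f2 _) ?_) ?_
  · simpa [td_D, td_lam] using lam3 G.id_top hI hI (x := D G (g a b)) trivial f3 (in_conj hI f4 _ _)
  · simpa [td_D, td_lam] using lam3 G.id_top hI hI (x := D G (g b c)) trivial f2 (in_conj hI f5 _ _)

/-- the symbol of `P` -/
theorem P_sym (hm : G.Id m) (hI : G.Id I) (h1 : g a b ∈ U hm) (h2 : g b c ∈ U hm)
    (h3 : g a e ∈ U hm) (f1 : In I (fc g a b c)) (f2 : In I (fc g c d e))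
    (f3 : In I (fc g b c d)) (f4 : In I (fc g a d e)) (f5 : In I (fc g a b e)) :
    (td G).P g a b c d e - lam G (D G (fc g a b c) * fc g c d e) ∈ m * (I * I) := by
  have h := lam_unit hm (hI.mul hI) (o_mul_mem hI hI (D_mem hI f1) f2) h3
  have k1 := lam3 hm hI hI (D_mem_U hm h1) f3 (in_conj hI f4 ↑(g a d)⁻¹ ↑(g a e)⁻¹)
  have k2 := lam3 hm hI hI (D_mem_U hm h2) f2 (in_conj hI f5 ↑(g a e)⁻¹ ↑(g b e)⁻¹)
  rw [mul_assoc m] at k1 k2
  convert sub_mem (sub_mem h k1) k2 using 1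
  simp only [TD.P, td_D, td_lam]
  abel


/-- the error of (V); `I` contains the curvature of `g` and of `g'` -/
theorem Ve_mem (hm : G.Id m) (hI : G.Id I) (hH : G.Id H) (h1 : g a b ∈ U hm) (h2 : g b c ∈ U hm)
    (f1 : In I (fc g' b c d)) (f2 : In I (fc g a b d)) (f3 : In I (fc g a c d))
    (k1 : In H (df g' g b c)) (k2 : In H (df g' g c d)) (k3 : In H (df g' g a d)) :
    (td G).Ve g' g a b c d ∈ m * (H * (I ⊔ H)) := by
  have l1 : m * H * I ≤ m * (H * (I ⊔ H)) := by
    rw [mul_assoc]; exact Ideal.mul_mono_right (Ideal.mul_mono_right le_sup_left)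
  have l2 : m * I * H ≤ m * (H * (I ⊔ H)) := by rwa [mul_right_comm]
  refine add_mem (sub_mem (sub_mem ?_ (l2 ?_)) (l1 ?_)) (l1 ?_)
  · exact Ideal.mul_mono_right (Ideal.mul_mono_right le_sup_right)
      (lam2 hm (hH.mul hH) (D_mem_U hm h1) (o_mul_mem hH hH k1 k2) _)
  · exact lam3 hm hI hH (D_mem_U hm h1) f1 (in_conj hH k3 _ _)
  · exact lam3 hm hH hI (D_mem_U hm h2) k2 (in_conj hI f2 _ _)
  · exact lam3 hm hH hI (D_mem_U hm h1) k1 (in_conj hI f3 _ _)

/-- (V), first form -/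
theorem var_mem (hm : G.Id m) (hI : G.Id I) (hH : G.Id H) (h1 : g a b ∈ U hm) (h2 : g b c ∈ U hm)
    (h3 : g a d ∈ U hm) (h4 : g' a d ∈ U hm) (f0 : In I (fc g a b c))
    (f1 : In I (fc g' b c d)) (f2 : In I (fc g a b d)) (f3 : In I (fc g a c d))
    (k0 : In H (df g' g a b)) (k1 : In H (df g' g b c)) (k2 : In H (df g' g c d))
    (k3 : In H (df g' g a d)) :
    (td G).cs g' a b c d - (td G).cs g a b c d + d2 ((td G).be g (df g' g)) a b c d
      - (lam G (D G (df g' g a b) * fc g' b c d) + lam G (D G (fc g a b c) * df g' g c d)) ∈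
      m * (H * (I ⊔ H)) := by
  have l1 : m * (H * I) ≤ m * (H * (I ⊔ H)) :=
    Ideal.mul_mono_right (Ideal.mul_mono_right le_sup_left)
  have e1 := l1 (lam_unit hm (hH.mul hI) (o_mul_mem hH hI (D_mem hH k0) f1) h4)
  have e2 := lam_unit hm (hI.mul hH) (o_mul_mem hI hH (D_mem hI f0) k2) h3
  rw [mul_comm I] at e2
  rw [TD.var]
  convert add_mem (add_mem e1 (l1 e2)) (Ve_mem hm hI hH h1 h2 f1 f2 f3 k1 k2 k3) using 1
  simp only [td_D, td_lam]
  abel

/-- the boundary term of (V), second form -/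
def bk (g' g : V → V → (Tw G)ˣ) (a b c : V) : O :=
  (td G).be g (df g' g) a b c - (td G).ka (fc g) (df g' g) a b c


theorem bk_zero (k1 : g' b c = g b c) (k2 : g' a c = g a c) : bk g' g a b c = 0 := by
  simp [bk, TD.be, TD.ka, df, k1, k2]

/-- (V), second form: `J` contains the plain coboundary of the variation -/
theorem var_q (hm : G.Id m) (hI : G.Id I) (hH : G.Id H) (hJ : G.Id J) (hHm : H ≤ m)
    (h1 : g a b ∈ U hm) (h2 : g b c ∈ U hm) (h3 : g a d ∈ U hm) (h5 : g c d ∈ U hm)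
    (f0 : In I (fc g a b c)) (f1 : In I (fc g b c d)) (f2 : In I (fc g a b d))
    (f3 : In I (fc g a c d)) (k0 : In H (df g' g a b)) (k1 : In H (df g' g b c))
    (k2 : In H (df g' g c d)) (k3 : In H (df g' g a d)) (k4 : In H (df g' g b d))
    (j1 : In J (d1 (df g' g) a b d)) (j2 : In J (d1 (df g' g) a c d))
    (j3 : In J (d1 (df g' g) b c d)) :
    (td G).cs g' a b c d - (td G).cs g a b c d + d2 (bk g' g) a b c d
      - lam G (df g' g a b * fc g b c d) ∈ m * (H * (I ⊔ H)) ⊔ J * (I ⊔ H) := by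
  have hIH := hI.sup hH
  have h4 : g' a d ∈ U hm := by
    have : (g' a d : Tw G) - 1 = df g' g a d + (g a d - 1) := by rw [df]; abel
    rw [mem_U, this]
    exact In.add (hHm k3) h3
  have f1' : In (I ⊔ H) (fc g' b c d) := by
    rw [← sub_add_cancel (fc g' b c d) (fc g b c d)]
    exact In.add (In.mono (fc_sub_mem' hH k1 k2 k4) le_sup_right) (In.mono f1 le_sup_left)
  have e0 := var_mem hm hIH hH h1 h2 h3 h4 (In.mono f0 le_sup_left) f1' (In.mono f2 le_sup_left)
    (In.mono f3 le_sup_left) k0 k1 k2 k3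
  rw [sup_assoc, sup_idem] at e0
  have e1 : lam G (D G (df g' g a b) * (fc g' b c d - fc g b c d - d1 (df g' g) b c d)) ∈
      m * (H * (I ⊔ H)) := by
    have := lam_mem (hH.mul ((hm.mul hH).sup (hH.mul hH)))
      (o_mul_mem hH ((hm.mul hH).sup (hH.mul hH)) (D_mem hH k0) (fc_sub_mem hm hH h2 h5 k1 k2))
    have l : H * (m * H ⊔ H * H) ≤ m * (H * (I ⊔ H)) := by
      refine (Ideal.mul_mono_right (sup_le le_rfl (Ideal.mul_mono_left hHm))).trans ?_
      rw [mul_left_comm]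
      exact Ideal.mul_mono_right (Ideal.mul_mono_right le_sup_right)
    exact l this
  have e2 : lam G (D G (df g' g a b) * d1 (df g' g) b c d) ∈ J * (I ⊔ H) :=
    Ideal.mul_mono_right le_sup_right
      (mul_comm H J ▸ lam_mem (hH.mul hJ) (o_mul_mem hH hJ (D_mem hH k0) j3))
  have e3 : lam G (d1 (df g' g) a b d * D G (fc g b c d)) ∈ J * (I ⊔ H) :=
    Ideal.mul_mono_right le_sup_left (lam_mem (hJ.mul hI) (o_mul_mem hJ hI j1 (D_mem hI f1)))
  have e4 : lam G (d1 (df g' g) a c d * D G (fc g a b c)) ∈ J * (I ⊔ H) :=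
    Ideal.mul_mono_right le_sup_left (lam_mem (hJ.mul hI) (o_mul_mem hJ hI j2 (D_mem hI f0)))
  have e5 : lam G (df g' g a d * D G (d2 (fc g) a b c d)) ∈ m * (H * (I ⊔ H)) := by
    have := lam_mem (hH.mul (hm.mul hI)) (o_mul_mem hH (hm.mul hI) k3
      (D_mem (hm.mul hI) (d2_fc_mem hm hI h1 h5 f0 f1)))
    rw [mul_left_comm] at this
    exact Ideal.mul_mono_right (Ideal.mul_mono_right le_sup_left) this
  have hs := (td G).swap (fc g) (df g' g) a b c d
  simp only [td_D, td_lam] at hs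
  have e6 : d2 (bk g' g) a b c d = d2 ((td G).be g (df g' g)) a b c d -
      d2 ((td G).ka (fc g) (df g' g)) a b c d := by simp only [d2, bk]; abel
  convert add_mem (Ideal.mem_sup_left (sub_mem (add_mem e0 e1) e5))
    (Ideal.mem_sup_right (add_mem (sub_mem e2 e3) e4)) using 1
  rw [e6]
  simp only [mul_sub, map_sub]
  linear_combination hs

section map

variable {O' : Type*} [CommRing O'] [Algebra K O'] [Fact ((p : O') = 0)] {G' : Gr (Gm p) K O'}
  {φ : O →ₐ[K] O'}

/-- push forward of units -/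
def um (h : G.Hom G' φ) : (Tw G)ˣ →* (Tw G')ˣ := Units.map (Tw.map h : Tw G →* Tw G')

omit [Fact ((p : O) = 0)] [Fact ((p : O') = 0)] in
@[simp] theorem val_um (h : G.Hom G' φ) (u : (Tw G)ˣ) : (um h u : Tw G') = Tw.map h u := rfl

omit [Fact ((p : O) = 0)] [Fact ((p : O') = 0)] in
theorem val_um_inv (h : G.Hom G' φ) (u : (Tw G)ˣ) :
    (↑(um h u)⁻¹ : Tw G') = Tw.map h ↑u⁻¹ := rfl

omit [Fact ((p : O) = 0)] [Fact ((p : O') = 0)] in
theorem um_mem (h : G.Hom G' φ) (hI : G.Id I) {I' : Ideal O'} (hI' : G'.Id I')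
    (hφ : ∀ x ∈ I, φ x ∈ I') {u : (Tw G)ˣ} (hu : u ∈ U hI) : um h u ∈ U hI' := by
  have := hφ _ hu
  rwa [← o_map h, map_sub, map_one] at this

omit [Fact ((p : O) = 0)] [Fact ((p : O') = 0)] in
theorem fc_um (h : G.Hom G' φ) (g : V → V → (Tw G)ˣ) (a b c : V) :
    fc (fun x y => um h (g x y)) a b c = Tw.map h (fc g a b c) := by simp [fc]

theorem cs_um (h : G.Hom G' φ) (g : V → V → (Tw G)ˣ) (a b c d : V) :
    (td G').cs (fun x y => um h (g x y)) a b c d = φ ((td G).cs g a b c d) := by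
  simp only [TD.cs, td_D, td_lam, fc_um, val_um, val_um_inv, ← map_D, ← map_mul, lam_map]


end map

end Crest.Agent.N255.Cs

end
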