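import Crest.Agent.N255.Cs.Vt
import Crest.Agent.N255.Tg.OnO
import Crest.Agent.N255.Core.CG

-- ▼ part N255/Cs/Act
section

/-!
# Row 255 (helper31): the boundary action at a vertex, derivatives and cubic coefficient
-/

set_option autoImplicit false
open Finset

noncomputable section

namespace Crest.Agent.N255.Cs

open Tw Tp

variable {X : Type} [TopologicalSpace X] {K : Type} [CommRing K] {p : ℕ} [hpp : Fact p.Prime]
  {O : Type} [CommRing O] [Algebra K O] {G : Gr (Gm p) K O} {m I J H L N Na : Ideal O}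
  {t : Fin 3 → Bool} {γ : Gm p} {δ : Derivation K O O}

theorem pr_tm (a : Gm p) (x y : Tw G) :
    G.pr a (o G (x * y)) = ∑ b, sg b (a - b) • (G.pr b (o G x) * G.pr (a - b) (o G y)) := by
  rw [o_mul, tm_apply, map_sum]
  refine sum_congr rfl fun b _ => ?_
  rw [map_sum, sum_eq_single (a - b) (fun c _ hc => ?_) (by simp), map_zsmul]
  · exact congrArg _ (((G.hg_pr _ _).mul (G.hg_pr _ _)).cast (add_sub_cancel b a))
  · rw [map_zsmul, ((G.hg_pr _ _).mul (G.hg_pr _ _)).ne, smul_zero]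
    exact fun e => hc (by rw [e, add_sub_cancel_left])

theorem der_pr_left (h : G.Dg γ δ) {x y : Tw G} {c : K} (hx : δ (o G x) = algebraMap K O c)
    (hy : δ (o G y) = 0) (a : Gm p) :
    δ (G.pr a (o G (x * y))) = sg γ (a - γ) • c • G.pr (a - γ) (o G y) := by
  rw [pr_tm, map_sum, sum_eq_single γ (fun b _ hb => ?_) (by simp)]
  · rw [map_zsmul, δ.leibniz, h.pr, h.pr, hx, hy, sub_self, G.hg_alg c, map_zero, smul_zero, zero_add,
      smul_eq_mul, mul_comm, Algebra.smul_def c]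
  · rw [map_zsmul, δ.leibniz, h.pr, h.pr, hx, hy, (G.hg_alg c).ne (sub_ne_zero.2 hb), map_zero,
      smul_zero, smul_zero, add_zero, smul_zero]

theorem der_pr_right (h : G.Dg γ δ) {x y : Tw G} {c : K} (hx : δ (o G x) = 0)
    (hy : δ (o G y) = algebraMap K O c) (a : Gm p) :
    δ (G.pr a (o G (x * y))) = sg (a - γ) γ • c • G.pr (a - γ) (o G x) := by
  rw [pr_tm, map_sum, sum_eq_single (a - γ) (fun b _ hb => ?_) (by simp)]
  · rw [map_zsmul, δ.leibniz, h.pr, h.pr, hx, hy, sub_sub_cancel, sub_self, G.hg_alg c, map_zero,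
      smul_zero, add_zero, smul_eq_mul, mul_comm, Algebra.smul_def c]
  · rw [map_zsmul, δ.leibniz, h.pr, h.pr, hx, hy, (G.hg_alg c).ne, map_zero,
      smul_zero, smul_zero, add_zero, smul_zero]
    exact fun e => hb (by rw [← sub_eq_zero.1 e, sub_sub_cancel])

theorem der_mul_zero (h : G.Dg γ δ) {x y : Tw G} (hx : δ (o G x) = 0) (hy : δ (o G y) = 0) :
    δ (o G (x * y)) = 0 := by
  rw [← G.sum (o G (x * y)), map_sum]
  exact sum_eq_zero fun a _ => by
    rw [der_pr_left h (c := 0) (hx.trans (map_zero _).symm) hy, zero_smul, smul_zero]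

theorem der_sub_one (u : Tw G) : δ (o G (u - 1)) = δ (o G u) := by
  rw [map_sub, map_sub, o_one, δ.map_one_eq_zero, sub_zero]

/-- the pairing `q` in components -/
theorem lam_sum {ι : Type*} (s : Finset ι) {d : ι → Gm p} (hd : Set.InjOn d s) {u v : ι → O}
    (hu : ∀ i ∈ s, G.Hg (d i) (u i)) (hv : ∀ i ∈ s, G.Hg (g0 p - d i) (v i)) :
    lam G (up G (∑ i ∈ s, u i) * up G (∑ i ∈ s, v i)) =
      ∑ i ∈ s, sg (d i) (g0 p - d i) • (u i * v i) := by
  simp only [map_sum, sum_mul_sum]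
  refine sum_congr rfl fun i hi => ?_
  have e : ∀ j ∈ s, lam G (up G (u i) * up G (v j)) =
      sg (d i) (g0 p - d j) • G.pr (g0 p) (u i * v j) := fun j hj => by
    rw [up_mul_hg (hu i hi) (hv j hj), map_zsmul]; rfl
  rw [sum_eq_single i (fun j hj hne => ?_) (fun h => absurd hi h), e i hi]
  · exact congrArg _ (((hu i hi).mul (hv i hi)).cast (add_sub_cancel _ _))
  · rw [e j hj, ((hu i hi).mul (hv j hj)).ne, smul_zero]
    exact fun e => hne (hd hj hi (by rw [← add_sub_assoc, eq_sub_iff_add_eq, add_comm] at e; simpa using e))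

omit hpp in
theorem sg_anti {a b : Gm p} (ha : a.1 ≠ 0) (hb : b.1 ≠ 0) (h : a.1 ≠ b.1) : sg b a = -sg a b := by
  have : ∀ x y : ZMod 2 × ZMod 2, x ≠ 0 → y ≠ 0 → x ≠ y → (if y.2 * x.1 = 0 then (1 : ℤ) else -1) =
    -if x.2 * y.1 = 0 then 1 else -1 := by decide
  exact this _ _ ha hb h

namespace Vt

variable (V : Vt K X t) {x a : Fin 3 → (Tw G)ˣ}

/-- the quadratic part of the boundary action -/
def Q (x a : Fin 3 → (Tw G)ˣ) : O :=
  ∑ j, if t j then 0 else (V.T j).s • lam G (((a j).val - 1) * ((x j).val - 1))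

/-- the cubic part of the boundary action -/
def Ps (x a : Fin 3 → (Tw G)ˣ) : O := V.A x a - V.Q x a




theorem Ps_eq (x a : Fin 3 → (Tw G)ˣ) : V.Ps x a = -(∑ j, if t j then 0 else ((V.T j).CC (a j) (x j) +
    (V.T j).s • lam G (((a j).val - 1) * ((x j).val - 1)))) - V.S x := by
  rw [Ps, A, Q, sub_right_comm, ← neg_add', ← sum_add_distrib]
  congr 3
  funext j
  split_ifs <;> simp

theorem S_mem {N : Fin 3 → Ideal O} (hN : ∀ j, G.Id (N j)) (hx : ∀ j, x j ∈ U (hN j)) :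
    V.S x ∈ N 0 * N 1 * N 2 := by
  have h := (hN 1).mul (hN 2)
  rw [mul_assoc]
  exact Submodule.smul_of_tower_mem _ _ (lam_mem ((hN 0).mul h) (o_mul_mem (hN 0) h (hx 0) (In.zsmul
    (In.sub (o_mul_mem (hN 1) (hN 2) (hx 1) (hx 2)) (mul_comm (N 2) (N 1) ▸
      o_mul_mem (hN 2) (hN 1) (hx 2) (hx 1))) _)))

section map

variable {O' : Type} [CommRing O'] [Algebra K O'] {G' : Gr (Gm p) K O'} {φ : O →ₐ[K] O'}

theorem la_mp (h : G.Hom G' φ) (x : Fin 3 → (Tw G)ˣ) (j : Fin 3) :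
    V.la (fun i => um h (x i)) j = Tw.map h (V.la x j) := by simp [la, -zsmul_eq_mul]

theorem S_mp (h : G.Hom G' φ) (x : Fin 3 → (Tw G)ˣ) : V.S (fun i => um h (x i)) = φ (V.S x) := by
  rw [S, S, la_mp, map_smul, ← lam_map h, map_mul (Tw.map h), map_sub (Tw.map h), map_one, val_um]

theorem A_mp (h : G.Hom G' φ) (x a : Fin 3 → (Tw G)ˣ) :
    V.A (fun i => um h (x i)) (fun i => um h (a i)) = φ (V.A x a) := by
  simp only [A, S_mp, To.CC_mp, map_sub, map_neg, map_sum, apply_ite φ, map_zero]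

end map

theorem der_la (h : G.Dg γ δ) (j : Fin 3) (z : ∀ i, i ≠ j → δ (o G (x i)) = 0) :
    δ (o G (V.la x j)) = 0 := by
  have h1 : δ (o G ((x (j + 1)).val - 1)) = 0 := by rw [der_sub_one, z _ (by simp)]
  have h2 : δ (o G ((x (j + 2)).val - 1)) = 0 := by
    rw [der_sub_one, z _ (by fin_cases j <;> decide)]
  rw [la, map_zsmul, map_zsmul, map_sub, map_sub, der_mul_zero h h1 h2, der_mul_zero h h2 h1,
    sub_self, smul_zero]

theorem der_S (h : G.Dg γ δ) (j : Fin 3) (z : ∀ i, i ≠ j → δ (o G (x i)) = 0) {c : K}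
    (hc : δ (o G (x j)) = algebraMap K O c) :
    δ (V.S x) = (V.T j).s • sg γ (g0 p - γ) • c • G.pr (g0 p - γ) (o G (V.la x j)) := by
  rw [V.S_eq x j, δ.map_smul, lam_eq, der_pr_left h ((der_sub_one _).trans hc) (V.der_la h j z)]

theorem der_CC (h : G.Dg γ δ) (j : Fin 3) (ht : t j = false) (z : ∀ i, i ≠ j → δ (o G (x i)) = 0)
    (z' : ∀ i, i ≠ j → t i = false → δ (o G (a i)) = 0) :
    δ (V.A x a) = -δ ((V.T j).CC (a j) (x j)) - δ (V.S x) := by
  rw [A, map_sub, map_neg, map_sum, sum_eq_single j (fun i _ hi => ?_) (by simp), ht]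
  · rfl
  rcases hi' : t i with _ | _
  · exact ((V.T i).dC_eq h _ (z i hi)).symm.trans ((V.T i).dC_zero h (z' i hi hi') _)
  · exact map_zero _



variable [Fact ((p : O) = 0)]

/-- derivative of the action in a direction `m` of a longitude slot -/
theorem der_A_m (h : G.Dg γ δ) (j : Fin 3) (ht : t j = false) (z : ∀ i, i ≠ j → δ (o G (x i)) = 0)
    (z' : ∀ i, t i = false → δ (o G (a i)) = 0) {c : K} (hc : δ (o G (x j)) = algebraMap K O c)
    (hN : G.Id N) (hNa : G.Id Na) (aN : Na ≤ N) (ha : a j ∈ U hNa) (hx : x j ∈ U hN) :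
    δ (V.A x a) - (V.T j).s • sg γ (g0 p - γ) • c •
      G.pr (g0 p - γ) (o G ((a j).val - (1 + V.la x j))) ∈ N * Na := by
  convert neg_mem ((V.T j).CC_der h hN hNa aN ha hx (z' j ht) (c := c) (by simp [hc])) using 1
  rw [V.der_CC h j ht z (fun i _ => z' i), V.der_S h j z hc, ← _root_.sub_sub]
  simp only [map_sub (o G) (_ - 1), map_sub (G.pr _), smul_sub]
  abel

theorem Ps_mem (hN : G.Id N) (hx : ∀ j, x j ∈ U hN) (ha : ∀ j, t j = false → a j ∈ U hN) :
    V.Ps x a ∈ N * N * N := by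
  rw [Ps_eq]
  refine sub_mem (neg_mem (sum_mem fun j _ => ?_)) (V.S_mem (N := fun _ => N) (fun _ => hN) hx)
  rcases ht : t j with _ | _
  · exact (V.T j).CC_q hN hN hN le_rfl le_rfl (ha j ht) (hx j)
  · exact zero_mem _





omit [Fact ((p : O) = 0)] in
/-- the trilinear coefficient of the cubic part -/
theorem cub {γ : Fin 3 → Gm p} {δ : Fin 3 → Derivation K O O} (h : ∀ i, G.Dg (γ i) (δ i))
    (hγ : γ 0 + γ 1 + γ 2 = g0 p) (hc : ∀ f, δ 1 (δ 2 f) = δ 2 (δ 1 f))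
    (z : ∀ i j, δ i (o G (x j)) = if i = j then 1 else 0)
    (z' : ∀ i j, t j = false → δ i (o G (a j)) = 0) :
    δ 0 (δ 1 (δ 2 (V.Ps x a))) =
      -algebraMap K O ((sg (γ 2) (γ 0 + γ 1) * (sg (γ 0) (γ 1) - sg (γ 1) (γ 0)) * V.e) • (V.T 0).s) := by
  have z0 : ∀ i j, j ≠ i → δ i (o G (x j)) = 0 := fun i j e => by rw [z, if_neg e.symm]
  have z1 : ∀ i, δ i (o G (x i)) = algebraMap K O 1 := fun i => by rw [z, if_pos rfl, map_one]
  have own : ∀ j, δ 1 (δ 2 (if t j then 0 else ((V.T j).CC (a j) (x j) +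
      (V.T j).s • lam G (((a j).val - 1) * ((x j).val - 1))))) = 0 := fun j => by
    have k : ∀ i, i ≠ j → δ i (if t j then 0 else ((V.T j).CC (a j) (x j) +
        (V.T j).s • lam G (((a j).val - 1) * ((x j).val - 1)))) = 0 := fun i e => by
      rcases ht : t j with _ | _
      · rw [if_neg (by simp), map_add, ← (V.T j).dC_eq (h i) _ (z0 i j e.symm),
          (V.T j).dC_zero (h i) (z' i j ht), Derivation.map_smul, lam_eq, (h i).pr, der_mul_zero (h i)
          ((der_sub_one _).trans (z' i j ht)) ((der_sub_one _).trans (z0 i j e.symm)), map_zero,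
          smul_zero, add_zero]
      · exact map_zero _
    by_cases e : j = 2
    · rw [hc, k 1 (by rw [e]; decide), map_zero]
    · rw [k 2 (Ne.symm e), map_zero]
  have e1 : g0 p - γ 2 = γ 0 + γ 1 := by rw [← hγ, add_sub_cancel_right]
  have e2 : δ 0 (G.pr (γ 0) (o G ((x 0).val - 1))) = 1 := by
    rw [(h 0).pr, der_sub_one, z1, sub_self, map_one]; exact G.hg_one
  rw [Ps_eq, map_sub, map_sub, map_neg, map_neg, map_sum, map_sum, sum_eq_zero fun j _ => own j,
    neg_zero, zero_sub, V.der_S (h 2) 2 (z0 2) (z1 2), e1, la, mul_smul, V.es 2 |>.symm]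
  simp only [Fin.reduceAdd, map_zsmul, map_sub (o G) (_ * _), map_sub (G.pr _), one_smul, map_neg,
    Derivation.map_smul, map_sub (δ _),
    der_pr_right (h 1) ((der_sub_one _).trans (z0 1 0 (by decide))) ((der_sub_one _).trans (z1 1)),
    der_pr_left (h 1) ((der_sub_one _).trans (z1 1)) ((der_sub_one _).trans (z0 1 0 (by decide))),
    add_sub_cancel_right, e2, Algebra.algebraMap_eq_smul_one]
  module

end Vt

end Crest.Agent.N255.Cs

end
end

-- ▼ part N255/Cs/OnO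

/-!
# Row 255 (helper31): the boundary action in the variables of three walls
-/

set_option autoImplicit false
open Finset

noncomputable section

namespace Crest.Agent.N255.Cs

open Tw Tp _root_.N255.Dr _root_.N255.Dr.O _root_.N255.Core

section uz

variable {p : ℕ} [Fact p.Prime] {K : Type} [CommRing K] {σ ι : Type} [Fintype σ]
  {GO : Gr (Gm p) K (O p K σ)} {d : σ → Gm p} (hO : ∀ i, GO.Hg (d i) (z i))

/-- the unit `1 + ∑ z (v i)` -/
def uz (s : Finset ι) (v : ι → σ) : (Tw GO)ˣ :=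
  un (Tg.id_mx hO) Tg.mx_nil (up GO (∑ i ∈ s, z (v i))) (sum_mem fun i _ => z_mem (v i))

theorem val_uz (s : Finset ι) (v : ι → σ) : (uz hO s v).val = 1 + up GO (∑ i ∈ s, z (v i)) :=
  val_un _ _ _ _

theorem uz_sub (s : Finset ι) (v : ι → σ) : (uz hO s v).val - 1 = up GO (∑ i ∈ s, z (v i)) := by
  rw [val_uz, add_sub_cancel_left]

theorem o_uz (s : Finset ι) (v : ι → σ) : o GO (uz hO s v) = 1 + ∑ i ∈ s, z (v i) := by
  rw [val_uz, map_add, o_one]; rfl

theorem uz_mem {I : Ideal (O p K σ)} (hI : GO.Id I) {s : Finset ι} {v : ι → σ}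
    (h : ∀ i ∈ s, z (v i) ∈ I) : uz hO s v ∈ U hI := by
  rw [mem_U, uz_sub]; exact sum_mem h

theorem uz_mp {τ : Type} [Fintype τ] {G' : Gr (Gm p) K (O p K τ)} {d' : τ → Gm p}
    (hO' : ∀ i, G'.Hg (d' i) (z i)) {φ : O p K σ →ₐ[K] O p K τ} (h : GO.Hom G' φ) {s : Finset ι}
    {v : ι → σ} {v' : ι → τ} (e : ∀ i ∈ s, φ (z (v i)) = z (v' i)) :
    um h (uz hO s v) = uz hO' s v' :=
  Units.ext ((o G').injective (by
    rw [val_um, o_map, o_uz, o_uz, map_add, map_one, map_sum, sum_congr rfl e]))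

theorem pr_uz {s : Finset ι} {v : ι → σ} (hd : Set.InjOn (fun i => d (v i)) s) {i : ι} (hi : i ∈ s) :
    GO.pr (d (v i)) (o GO ((uz hO s v).val - 1)) = z (v i) := by
  rw [uz_sub, LinearEquiv.apply_symm_apply, map_sum,
    sum_eq_single i (fun j hj e => (hO _).ne fun e' => e (hd hj hi e'.symm)) fun h => absurd hi h]
  exact hO _

variable [Fact ((p : K) = 0)]

include hO in
theorem dg_pd (i : σ) : GO.Dg (d i) (pd i) := fun _ _ h => Tg.hg_pd hO h i

theorem pd_uz_zero {s : Finset ι} {v : ι → σ} {u : σ} (h : ∀ i ∈ s, u ≠ v i) :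
    pd u (o GO (uz hO s v)) = 0 := by
  rw [o_uz, map_add, Derivation.map_one_eq_zero, zero_add, map_sum]
  exact sum_eq_zero fun i hi => pd_z_ne (h i hi)

theorem pd_uz_one {s : Finset ι} {v : ι → σ} (h : Set.InjOn v s) {i : ι} (hi : i ∈ s) :
    pd (v i) (o GO (uz hO s v)) = 1 := by
  rw [o_uz, map_add, Derivation.map_one_eq_zero, zero_add, map_sum,
    sum_eq_single i (fun j hj e => pd_z_ne fun e' => e (h hj hi e'.symm)) (fun h => absurd hi h),
    pd_z_self]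

end uz

variable {p : ℕ} [Fact p.Prime] {s : Fin 3 → Type} [∀ i, Fintype (s i)]
  (w : ∀ i, Wall p (Gm p) (g0 p) (s i)) (t : Fin 3 → Bool) {V : Type} [Fintype V]

open Classical in
/-- the boundary variables of a wall -/
def ys {s : Type} [Fintype s] (w : Wall p (Gm p) (g0 p) s) : Finset s := {x | w.kd x = none}

theorem mem_ys {s : Type} [Fintype s] {w : Wall p (Gm p) (g0 p) s} {x : s} :
    x ∈ ys w ↔ w.kd x = none := by simp [ys]

/-- graded variables at a vertex -/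
structure Gv (V : Type) [Fintype V] where
  em : (Σ i, s i) × Bool → V
  inj : Set.InjOn em {q | Ok w t q}
  G : Gr (Gm p) (ZMod p) (O p (ZMod p) V)
  d : V → Gm p
  hO : ∀ v, G.Hg (d v) (z v)
  dy : ∀ i x, (w i).kd x = none → d (em (⟨i, x⟩, false)) = (w i).deg x
  dm : ∀ i x, t i = false → (w i).kd x = none → d (em (⟨i, x⟩, true)) = g0 p - (w i).deg x

/-- the quaternion directions of the three slots -/
def qd : Fin 3 → ZMod 2 × ZMod 2 := ![(1, 0), (0, 1), (1, 1)]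

variable {w t}

theorem ok_y {i : Fin 3} {x : s i} (h : (w i).kd x = none) : Ok w t (⟨i, x⟩, false) :=
  Or.inl ⟨rfl, by simp [h]⟩

theorem ok_x {i : Fin 3} {x : s i} (h : (w i).kd x = none) : Ok w t (⟨i, x⟩, !t i) := by
  rcases ht : t i with _ | _
  exacts [Or.inr ⟨rfl, ht, h⟩, ok_y h]

namespace Gv

variable (g : Gv w t V)

/-- the boundary datum `1 + y` -/
def a (i : Fin 3) : (Tw g.G)ˣ := uz g.hO (ys (w i)) fun x => g.em (⟨i, x⟩, false)

/-- the meridian -/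
def x (i : Fin 3) : (Tw g.G)ˣ := uz g.hO (ys (w i)) fun x => g.em (⟨i, x⟩, !t i)

theorem a_eq (i : Fin 3) (h : t i = true) : g.a i = g.x i := by simp only [a, x, h, Bool.not_true]

/-- the ideal of all `y` and `m` -/
def N : Ideal (O p (ZMod p) V) :=
  Ideal.span {f | ∃ q, Ok w t q ∧ (w q.1.1).kd q.1.2 = none ∧ f = z (g.em q)}

theorem id_N : g.G.Id g.N := g.G.id_span_hg fun _ ⟨_, _, _, e⟩ => ⟨_, e ▸ g.hO _⟩

theorem N_le {I : Ideal (O p (ZMod p) V)}
    (h : ∀ q, Ok w t q → (w q.1.1).kd q.1.2 = none → z (g.em q) ∈ I) : g.N ≤ I :=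
  Ideal.span_le.2 fun _ ⟨q, h1, h2, e⟩ => e ▸ h q h1 h2

theorem N_mx : g.N ≤ mx := g.N_le fun _ _ _ => z_mem _

theorem N_Ge (La : ℕ) (FV : V → ℕ) : g.N ≤ Ge (vw w t La g.em FV) La :=
  g.N_le fun q h1 h2 => by
    have := z_mem_Ge (p := p) (FV := vw w t La g.em FV) (g.em q)
    rwa [vw, if_neg] at this
    rintro ⟨i, x, h, e⟩
    obtain rfl := g.inj h1 (Or.inl ⟨rfl, by simp [h]⟩) e
    simp [h] at h2

theorem a_N (i : Fin 3) : g.a i ∈ U g.id_N :=
  uz_mem _ _ fun _ hx => Ideal.subset_span ⟨_, ok_y (mem_ys.1 hx), mem_ys.1 hx, rfl⟩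

theorem x_N (i : Fin 3) : g.x i ∈ U g.id_N :=
  uz_mem _ _ fun _ hx => Ideal.subset_span ⟨_, ok_x (mem_ys.1 hx), mem_ys.1 hx, rfl⟩

theorem pd_a {q : (Σ i, s i) × Bool} (hq : Ok w t q) (i : Fin 3)
    (h : q.1.1 ≠ i ∨ q.2 = true ∨ (w q.1.1).kd q.1.2 ≠ none) : pd (g.em q) (o g.G (g.a i)) = 0 :=
  pd_uz_zero _ fun x hx e => by
    obtain rfl := g.inj hq (ok_y (mem_ys.1 hx)) e
    simp [mem_ys.1 hx] at h

theorem pd_x {q : (Σ i, s i) × Bool} (hq : Ok w t q) (i : Fin 3)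
    (h : q.1.1 ≠ i ∨ q.2 = t i ∨ (w q.1.1).kd q.1.2 ≠ none) : pd (g.em q) (o g.G (g.x i)) = 0 :=
  pd_uz_zero _ fun x hx e => by
    obtain rfl := g.inj hq (ok_x (mem_ys.1 hx)) e
    simp [mem_ys.1 hx] at h


theorem pd_x_one {i : Fin 3} {y : s i} (h : (w i).kd y = none) :
    pd (g.em (⟨i, y⟩, !t i)) (o g.G (g.x i)) = 1 :=
  pd_uz_one g.hO (v := fun x => g.em (⟨i, x⟩, !t i)) (fun _ h1 _ h2 e => by
    simpa using g.inj (ok_x (mem_ys.1 h1)) (ok_x (mem_ys.1 h2)) e) (mem_ys.2 h)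

variable {X : Type} [TopologicalSpace X] (T : Vt (ZMod p) X t)

/-- the coefficients of the Gaussian part -/
def c (w : ∀ i, Wall p (Gm p) (g0 p) (s i)) (T : Vt (ZMod p) X t) (i : Fin 3) (x : s i) : ZMod p :=
  sg ((w i).deg x) (g0 p - (w i).deg x) • (T.T i).s

theorem c_ne (he : T.e * T.e = 1) (hs : (T.T 0).s ≠ 0) (i : Fin 3) (x : s i) : c w T i x ≠ 0 :=
  fun h => hs (by
    have h1 : (T.T i).s = 0 := by
      rw [← one_zsmul (T.T i).s, ← sg_sq ((w i).deg x) (g0 p - (w i).deg x), mul_smul, ← c, h, smul_zero]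
    rw [← one_zsmul (T.T 0).s, ← he, mul_smul, ← T.es i, h1, smul_zero, smul_zero])

/-- the cubic part -/
def Ps : O p (ZMod p) V := T.Ps g.x g.a

open Classical in
theorem A_eq : T.A g.x g.a = ∑ i, ∑ x, (if t i = false ∧ (w i).kd x = none then
    c w T i x • (z (g.em (⟨i, x⟩, false)) * z (g.em (⟨i, x⟩, true))) else 0) + g.Ps T := by
  rw [Ps, Vt.Ps, ← sub_eq_iff_eq_add, sub_sub_cancel, Vt.Q]
  refine sum_congr rfl fun i _ => ?_
  rcases ht : t i with _ | _
  · rw [if_neg (by simp), a, x, uz_sub, uz_sub, lam_sum (d := (w i).deg) _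
      (fun _ h1 _ h2 => (w i).inj _ _ (mem_ys.1 h1) (mem_ys.1 h2))
      (fun y hy => g.dy i y (mem_ys.1 hy) ▸ g.hO _)
      (fun y hy => by rw [ht, ← g.dm i y ht (mem_ys.1 hy)]; exact g.hO _), smul_sum, ys, sum_filter]
    refine sum_congr rfl fun y _ => ?_
    simp only [true_and, ht, Bool.not_false, c, smul_assoc, smul_comm (T.T i).s]
  · simp

theorem Ps_N : g.Ps T ∈ g.N * g.N * g.N := T.Ps_mem g.id_N g.x_N fun i _ => g.a_N i

theorem Ps2 : g.Ps T ∈ (mx : Ideal (O p (ZMod p) V)) ^ 2 :=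
  sq (mx : Ideal (O p (ZMod p) V)) ▸ Ideal.mul_mono (Ideal.mul_le_left.trans g.N_mx) g.N_mx (g.Ps_N T)

theorem hPs (La : ℕ) (FV : V → ℕ) : g.Ps T ∈ Ge (vw w t La g.em FV) (3 * La) := by
  have h := g.N_Ge La FV
  rw [show 3 * La = La + La + La by ring]
  exact Ge_mul (Ideal.mul_mono ((Ideal.mul_mono h h).trans Ge_mul) h (g.Ps_N T))

/-- the trilinear coefficient does not vanish -/
theorem cub_ne (hp : p ≠ 2) (he : T.e * T.e = 1) (hs : (T.T 0).s ≠ 0) {D : ∀ i, ZMod p → s i}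
    (hD : ∀ i d, (w i).kd (D i d) = none) (hd : ∀ i d, (w i).deg (D i d) = (qd i, d))
    (d : Fin 3 → ZMod p) (h : ∑ i, (if t i = true then d i else 1 - d i) = 1) :
    aug (pd (g.em (⟨0, D 0 (d 0)⟩, !t 0)) (pd (g.em (⟨1, D 1 (d 1)⟩, !t 1))
      (pd (g.em (⟨2, D 2 (d 2)⟩, !t 2)) (g.Ps T)))) ≠ 0 := by
  have e : ∀ i, g.d (g.em (⟨i, D i (d i)⟩, !t i)) = (qd i, if t i = true then d i else 1 - d i) :=
    fun i => by
      rcases ht : t i with _ | _
      · rw [Bool.not_false, g.dm i _ ht (hD i _), hd, if_neg (by simp)]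
        exact Prod.ext ((by decide : ∀ i, 0 - qd i = qd i) i) rfl
      · rw [Bool.not_true, g.dy i _ (hD i _), hd, if_pos rfl]
  rw [Ps, T.cub (γ := fun i => g.d (g.em (⟨i, D i (d i)⟩, !t i)))
    (δ := fun i => pd (g.em (⟨i, D i (d i)⟩, !t i))) (fun i => dg_pd g.hO _) ?_
    (fun f => pd_comm _ _ f) (fun i j => ?_) fun i j hj => ?_]
  · rw [map_neg, AlgHom.commutes, neg_ne_zero, sg_anti (a := g.d _) (b := g.d (g.em (⟨1, _⟩, _)))
      (by rw [e]; exact (by decide : qd 0 ≠ 0)) (by rw [e]; exact (by decide : qd 1 ≠ 0))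
      (by rw [e, e]; exact (by decide : qd 0 ≠ qd 1)), sub_neg_eq_add, ← two_mul]
    generalize hu : sg (p := p) _ (_ + _) = u
    generalize hv : sg (p := p) _ _ = v
    have h2 : (2 : ZMod p) ≠ 0 := fun h => hp ((Nat.prime_dvd_prime_iff_eq Fact.out Nat.prime_two).1
      ((ZMod.natCast_eq_zero_iff 2 p).1 h))
    intro h0
    have h1 : (u * u * (v * v) * (T.e * T.e) * 2) • (T.T 0).s = 0 := by
      rw [show u * u * (v * v) * (T.e * T.e) * 2 = u * v * T.e * (u * (2 * v) * T.e) by ring, mul_smul]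
      exact (congrArg _ h0).trans (smul_zero _)
    rw [← hu, ← hv, sg_sq, sg_sq, he, zsmul_eq_mul] at h1
    exact mul_ne_zero h2 hs (by simpa using h1)
  · rw [Fin.sum_univ_three] at h
    simp only [e]
    exact Prod.ext (by decide : qd 0 + qd 1 + qd 2 = 0) h
  · split_ifs with hij
    · subst hij; exact g.pd_x_one (hD i _)
    · exact g.pd_x (ok_x (hD i _)) j (Or.inl hij)
  · refine g.pd_a (ok_x (hD i _)) j ?_
    by_cases hij : i = j
    · exact Or.inr (Or.inl (by simp [hij, hj]))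
    · exact Or.inl hij

end Gv

end Crest.Agent.N255.Cs

end
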