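import Crest.Agent.N255.Cs.Mem
import Crest.Agent.N255.Tp.Basic

-- ▼ part N255/Cs/Der
section

/-!
# Row 255 (helper31): derivatives of the Chern-Simons cochain
-/

set_option autoImplicit false
open Finset

noncomputable section

namespace Crest.Agent.N255.Cs

open Tw TrivSqZeroExt

section congr

variable {R A V V' : Type*} [Ring R] [AddCommGroup A] (T : TD R A) {g g' : V → V → Rˣ}
  {k k' : V' → V' → Rˣ} {a b c d e : V} {a' b' c' d' e' : V'}

theorem fc_congr (h1 : g a b = k a' b') (h2 : g b c = k b' c') (h3 : g a c = k a' c') :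
    fc g a b c = fc k a' b' c' := by simp only [fc, h1, h2, h3]

theorem TD.cs_congr (h1 : g a b = k a' b') (h2 : g b c = k b' c') (h3 : g c d = k c' d')
    (h4 : g b d = k b' d') (h5 : g a d = k a' d') : T.cs g a b c d = T.cs k a' b' c' d' := by
  simp only [TD.cs, fc, h1, h2, h3, h4, h5]



end congr

variable {p : ℕ} [hpp : Fact p.Prime] {K O V : Type*} [CommRing K] [CommRing O] [Algebra K O]
  {G : Gr (Gm p) K O}

theorem bk_congr [Fact ((p : O) = 0)] {V' : Type*} {g g' : V → V → (Tw G)ˣ}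
    {k k' : V' → V' → (Tw G)ˣ} {a b c : V} {a' b' c' : V'} (h1 : g a b = k a' b')
    (h2 : g b c = k b' c') (h3 : g a c = k a' c') (h2' : g' b c = k' b' c')
    (h3' : g' a c = k' a' c') : bk g' g a b c = bk k' k a' b' c' := by
  simp only [bk, TD.be, TD.ka, df, fc, h1, h2, h3, h2', h3']

section gen

variable {Γ : Type*} [AddCommGroup Γ] [Fintype Γ] [DecidableEq Γ] (G : Gr Γ K O)

/-- dual numbers with `ε` of degree `γ` -/
def Gr.dual (γ : Γ) : Gr Γ K (TrivSqZeroExt O O) where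
  pr a := (G.pr a).prodMap (G.pr (a - γ))
  sum x := by
    refine TrivSqZeroExt.ext ?_ ?_
    · rw [fst_sum]; exact G.sum _
    · rw [snd_sum]
      exact ((Equiv.subRight γ).sum_comp fun a => G.pr a x.snd).trans (G.sum _)
  idem a b x := by
    refine TrivSqZeroExt.ext ?_ ?_
    · change G.pr a (G.pr b x.fst) = _
      rw [G.idem]; split_ifs <;> rfl
    · change G.pr (a - γ) (G.pr (b - γ) x.snd) = _
      rw [G.idem]
      simp only [sub_left_inj]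
      split_ifs <;> rfl
  mul a b x y := by
    refine TrivSqZeroExt.ext (G.mul a b x.fst y.fst) ?_
    change G.Hg (a + b - γ) (G.pr a x.fst * G.pr (b - γ) y.snd + G.pr (a - γ) x.snd * G.pr b y.fst)
    exact (((G.hg_pr _ _).mul (G.hg_pr _ _)).cast (by abel)).add
      (((G.hg_pr _ _).mul (G.hg_pr _ _)).cast (by abel))
  one := TrivSqZeroExt.ext G.one (map_zero (G.pr (0 - γ)))


theorem Gr.dual_snd (γ a : Γ) (x : TrivSqZeroExt O O) :
    ((G.dual γ).pr a x).snd = G.pr (a - γ) x.snd := rfl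

/-- a derivation of degree `-γ` -/
def Gr.Dg (γ : Γ) (δ : Derivation K O O) : Prop := ∀ a x, G.Hg a x → G.Hg (a - γ) (δ x)

variable {G}

theorem Gr.Dg.pr {γ : Γ} {δ : Derivation K O O} (h : G.Dg γ δ) (a : Γ) (x : O) :
    δ (G.pr a x) = G.pr (a - γ) (δ x) := by
  conv_rhs => rw [← G.sum x, map_sum, map_sum]
  rw [sum_eq_single a (fun b _ hb => (h b _ (G.hg_pr b x)).ne (by simpa using hb.symm)) (by simp)]
  exact (h a _ (G.hg_pr a x)).symm

/-- `x ↦ x + ε δ x` -/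
def jet (δ : Derivation K O O) : O →ₐ[K] TrivSqZeroExt O O :=
  AlgHom.ofLinearMap (LinearMap.prod LinearMap.id δ.toLinearMap)
    (TrivSqZeroExt.ext rfl δ.map_one_eq_zero) fun x y => TrivSqZeroExt.ext rfl (by
      change δ (x * y) = x * δ y + δ x * y
      rw [δ.leibniz, smul_eq_mul, smul_eq_mul, mul_comm y])

theorem hom_jet {γ : Γ} {δ : Derivation K O O} (h : G.Dg γ δ) : G.Hom (G.dual γ) (jet δ) :=
  fun a x => TrivSqZeroExt.ext rfl (h.pr a x)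

theorem hom_inl (G : Gr Γ K O) (γ : Γ) : G.Hom (G.dual γ) (inlAlgHom K O O) :=
  fun a _ => TrivSqZeroExt.ext rfl (map_zero (G.pr (a - γ))).symm

/-- the ideal `I + ε J` -/
def pid (I J : Ideal O) (h : I ≤ J) : Ideal (TrivSqZeroExt O O) where
  carrier := {x | x.fst ∈ I ∧ x.snd ∈ J}
  zero_mem' := ⟨zero_mem _, zero_mem _⟩
  add_mem' hx hy := ⟨add_mem hx.1 hy.1, add_mem hx.2 hy.2⟩
  smul_mem' _ _ hx := ⟨Ideal.mul_mem_left _ _ hx.1,
    add_mem (Ideal.mul_mem_left _ _ hx.2) (Ideal.mul_mem_left _ _ (h hx.1))⟩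

theorem id_pid {I J : Ideal O} (h : I ≤ J) (hI : G.Id I) (hJ : G.Id J) (γ : Γ) :
    (G.dual γ).Id (pid I J h) := fun _ _ hx => ⟨hI _ _ hx.1, hJ _ _ hx.2⟩

theorem pid_mul {I J I' J' I'' J'' : Ideal O} {h : I ≤ J} {h' : I' ≤ J'} (h'' : I'' ≤ J'')
    (e1 : I * I' ≤ I'') (e2 : I * J' ≤ J'') (e3 : J * I' ≤ J'') :
    pid I J h * pid I' J' h' ≤ pid I'' J'' h'' :=
  Ideal.mul_le.2 fun _ hx _ hy => ⟨e1 (Ideal.mul_mem_mul hx.1 hy.1),
    add_mem (e2 (Ideal.mul_mem_mul hx.1 hy.2)) (e3 (Ideal.mul_mem_mul hx.2 hy.1))⟩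

theorem pid_mono {I J I' J' : Ideal O} {h : I ≤ J} (h' : I' ≤ J') (e1 : I ≤ I') (e2 : J ≤ J') :
    pid I J h ≤ pid I' J' h' := fun _ hx => ⟨e1 hx.1, e2 hx.2⟩

end gen

instance [h : Fact ((p : O) = 0)] : Fact ((p : TrivSqZeroExt O O) = 0) :=
  ⟨by rw [← map_natCast (inlHom O O), h.out, map_zero]⟩

variable [Fact ((p : O) = 0)] {γ : Gm p} {δ : Derivation K O O}

/-- the boundary term of the derivative -/
def bD (h : G.Dg γ δ) (g : V → V → (Tw G)ˣ) (a b c : V) : O :=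
  (bk (fun x y => um (hom_jet h) (g x y)) (fun x y => um (hom_inl G γ) (g x y)) a b c).snd

theorem bD_congr (h : G.Dg γ δ) {V' : Type*} {g : V → V → (Tw G)ˣ} {k : V' → V' → (Tw G)ˣ}
    {a b c : V} {a' b' c' : V'} (h1 : g a b = k a' b') (h2 : g b c = k b' c')
    (h3 : g a c = k a' c') : bD h g a b c = bD h k a' b' c' := by
  unfold bD
  rw [bk_congr (k := fun x y => um (hom_inl G γ) (k x y)) (k' := fun x y => um (hom_jet h) (k x y))
    (a' := a') (b' := b') (c' := c')] <;> simp only [h1, h2, h3]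

theorem bD_zero (h : G.Dg γ δ) {g : V → V → (Tw G)ˣ} {a b c : V} (h1 : δ (o G (g b c)) = 0)
    (h2 : δ (o G (g a c)) = 0) : bD h g a b c = 0 := by
  unfold bD
  have k : ∀ {u : (Tw G)ˣ}, δ (o G u) = 0 → um (hom_jet h) u = um (hom_inl G γ) u := fun h1 =>
    Units.ext (TrivSqZeroExt.ext rfl h1)
  rw [bk_zero (k h1) (k h2)]
  rfl

omit [Fact ((p : O) = 0)] in
/-- the pairing with `ε c` -/
theorem lam_eps (c : K) (x : Tw (G.dual γ)) (hx : o _ x = inr (algebraMap K O c)) (y : Tw G) :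
    (lam (G.dual γ) (x * Tw.map (hom_inl G γ) y)).snd =
      sg γ (g0 p - γ) • c • G.pr (g0 p - γ) (o G y) := by
  have hh : (G.dual γ).Hg γ (o _ x) := by
    rw [hx]
    refine TrivSqZeroExt.ext (map_zero (G.pr γ)) ?_
    rw [Gr.dual_snd, sub_self]
    exact G.hg_alg c
  rw [lam_mul, sum_eq_single γ (fun b _ hb => by rw [hh.ne hb, zero_mul, smul_zero]) (by simp), hh,
    o_map, ← hom_inl G γ, hx, snd_smul, inlAlgHom_apply, inr_mul_inl, Algebra.smul_def c]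
  rfl

/-- the derivative of `cs` in a direction whose leading term is the cocycle `κ` -/
theorem der_cs (h : G.Dg γ δ) {m I : Ideal O} (hm : G.Id m) (hI : G.Id I) {g : V → V → (Tw G)ˣ}
    {a b c d : V} {κ : V → V → K} (h1 : g a b ∈ U hm) (h2 : g b c ∈ U hm) (h3 : g a d ∈ U hm)
    (h5 : g c d ∈ U hm) (f0 : In I (fc g a b c)) (f1 : In I (fc g b c d))
    (f2 : In I (fc g a b d)) (f3 : In I (fc g a c d))
    (k : ∀ x ∈ [(a, b), (b, c), (c, d), (a, c), (a, d), (b, d)],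
      δ (o G (g x.1 x.2)) - algebraMap K O (κ x.1 x.2) ∈ m)
    (j1 : d1 κ a b d = 0) (j2 : d1 κ a c d = 0) (j3 : d1 κ b c d = 0) :
    δ ((td G).cs g a b c d) + d2 (bD h g) a b c d
      - sg γ (g0 p - γ) • κ a b • G.pr (g0 p - γ) (o G (fc g b c d)) ∈ m * I := by
  set g' : V → V → (Tw (G.dual γ))ˣ := fun x y => um (hom_jet h) (g x y) with hg'
  set g0' : V → V → (Tw (G.dual γ))ˣ := fun x y => um (hom_inl G γ) (g x y) with hg0
  have hm' := id_pid (le_top (a := m)) hm G.id_top γ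
  have hI' := id_pid le_rfl hI hI γ
  have hH' := id_pid (le_top (a := ⊥)) G.id_bot G.id_top γ
  have hJ' := id_pid (bot_le (a := m)) G.id_bot hm γ
  have u : ∀ {x y}, g x y ∈ U hm → g0' x y ∈ U hm' := fun hx =>
    um_mem (hom_inl G γ) hm hm' (fun _ hz => ⟨hz, trivial⟩) hx
  have f : ∀ {x y z}, In I (fc g x y z) → In (pid I I le_rfl) (fc g0' x y z) := fun hx => by
    rw [hg0, fc_um]; exact ⟨hx, zero_mem _⟩
  have kf : ∀ x y, (o _ (df g' g0' x y)).fst = 0 := fun x y => sub_self (o G (g x y))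
  have ks : ∀ x y, (o _ (df g' g0' x y)).snd = δ (o G (g x y)) := fun x y => sub_zero _
  have kk : ∀ x y, In (pid ⊥ ⊤ le_top) (df g' g0' x y) := fun x y => ⟨kf x y, trivial⟩
  have j : ∀ {x y z}, δ (o G (g x y)) - algebraMap K O (κ x y) ∈ m →
      δ (o G (g y z)) - algebraMap K O (κ y z) ∈ m → δ (o G (g x z)) - algebraMap K O (κ x z) ∈ m →
      d1 κ x y z = 0 → In (pid ⊥ m bot_le) (d1 (df g' g0') x y z) := by
    intro x y z e1 e2 e3 e4
    refine ⟨?_, ?_⟩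
    · simp only [d1, map_add, map_sub, fst_add, fst_sub, kf]; simp
    · simp only [d1, map_add, map_sub, snd_add, snd_sub, ks]
      have := congrArg (algebraMap K O) e4
      simp only [d1, map_add, map_sub, map_zero] at this
      convert add_mem (sub_mem e2 e3) e1 using 1
      linear_combination this
  have kab := k (a, b) (by simp)
  have e := var_q hm' hI' hH' hJ' (pid_mono _ bot_le le_rfl) (u h1) (u h2) (u h3) (u h5) (f f0) (f f1)
    (f f2) (f f3) (kk _ _) (kk _ _) (kk _ _) (kk _ _) (kk _ _)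
    (j kab (k (b, d) (by simp)) (k (a, d) (by simp)) j1)
    (j (k (a, c) (by simp)) (k (c, d) (by simp)) (k (a, d) (by simp)) j2)
    (j (k (b, c) (by simp)) (k (c, d) (by simp)) (k (b, d) (by simp)) j3)
  have l0 : pid I I le_rfl ⊔ pid ⊥ ⊤ le_top ≤ pid I ⊤ le_top :=
    sup_le (pid_mono _ le_rfl le_top) (pid_mono _ bot_le le_rfl)
  have l1 : pid m ⊤ le_top * (pid ⊥ ⊤ le_top * (pid I I le_rfl ⊔ pid ⊥ ⊤ le_top)) ⊔
      pid ⊥ m bot_le * (pid I I le_rfl ⊔ pid ⊥ ⊤ le_top) ≤ pid ⊥ (m * I) bot_le := by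
    refine sup_le ((Ideal.mul_mono_right ((Ideal.mul_mono_right l0).trans
      (pid_mul (I'' := ⊥) (J'' := I) bot_le (by simp) (by simp) (by simp)))).trans
      (pid_mul _ (by simp) le_rfl (by simp))) ((Ideal.mul_mono_right l0).trans
      (pid_mul _ (by simp) (by simp) le_rfl))
  have e1 := (l1 e).2
  let x : Tw (G.dual γ) := up _ (inr (algebraMap K O (κ a b)))
  have e2 : lam (G.dual γ) ((df g' g0' a b - x) * fc g0' b c d) ∈ pid ⊥ (m * I) bot_le := by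
    refine pid_mul (I := ⊥) (J := m) (I' := I) (J' := I) (h := bot_le) (h' := le_rfl) _ (by simp)
      (by simp) le_rfl (lam_mem (hJ'.mul hI') (o_mul_mem hJ' hI' ⟨?_, ?_⟩ (f f1)))
    · rw [map_sub, fst_sub, kf]; simp [x]
    · rw [map_sub, snd_sub, ks]; exact kab
  have e3 := lam_eps (G := G) (γ := γ) (κ a b) x rfl (fc g b c d)
  rw [hg', hg0, cs_um, cs_um] at e1
  rw [sub_mul, map_sub] at e2
  rw [← fc_um, ← hg0] at e3
  convert add_mem e1 e2.2 using 1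
  simp only [snd_sub, snd_add, d2, e3, bD, ← hg', ← hg0]
  have : (jet δ ((td G).cs g a b c d)).snd = δ ((td G).cs g a b c d) := rfl
  rw [this, inlAlgHom_apply, snd_inl]
  abel

end Crest.Agent.N255.Cs

end
end

-- ▼ part N255/Cs/Sing

/-!
# Row 255 (helper31): off-shell connections on singular simplices
-/

set_option autoImplicit false
open Finset

noncomputable section

namespace Crest.Agent.N255.Cs

open Tw Tp

variable {X Y : Type} [TopologicalSpace X] [TopologicalSpace Y] {n l : ℕ}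

/-- families are closed under increasing vertex maps -/
theorem sb_sub (P : Sb X) : ∀ {n l : ℕ} {σ : Sx n X} (_ : σ ∈ P.S n) {v : Fin (l + 1) → Fin (n + 1)}
    (_ : StrictMono v), sub σ v ∈ P.S l := by
  intro n
  induction n with
  | zero =>
    intro l σ h v hv
    obtain rfl : l = 0 := by simpa using Fintype.card_le_of_injective v hv.injective
    rwa [show v = id from funext fun t => Subsingleton.elim (α := Fin 1) _ _, sub_id]
  | succ n ih =>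
    intro l σ h v hv
    by_cases hs : Function.Surjective v
    · obtain rfl : l = n + 1 := by simpa using Fintype.card_of_bijective ⟨hv.injective, hs⟩
      have : v = id := by
        have := Subsingleton.elim (hv.orderIsoOfSurjective v hs) (OrderIso.refl _)
        funext x
        simpa using DFunLike.congr_fun this x
      rwa [this, sub_id]
    · obtain ⟨i, hi⟩ := not_forall.1 hs
      choose w hw using fun t => Fin.exists_succAbove_eq (x := v t) (y := i) fun e => hi ⟨t, e⟩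
      have e : v = i.succAbove ∘ w := funext fun t => (hw t).symm
      rw [e, ← Tp.sub_sub]
      exact ih (P.fc_mem n σ i h) fun a b hab =>
        (Fin.strictMono_succAbove i).lt_iff_lt.1 (by rw [hw, hw]; exact hv hab)

/-- edge -/
abbrev e2 (σ : Sx n X) (a b : Fin (n + 1)) : Sx 1 X := sub σ ![a, b]

/-- triangle -/
abbrev e3 (σ : Sx n X) (a b c : Fin (n + 1)) : Sx 2 X := sub σ ![a, b, c]

/-- tetrahedron -/
abbrev e4 (σ : Sx n X) (a b c d : Fin (n + 1)) : Sx 3 X := sub σ ![a, b, c, d]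

theorem e2_mem (P : Sb X) {σ : Sx n X} (h : σ ∈ P.S n) {a b : Fin (n + 1)} (h1 : a < b) :
    e2 σ a b ∈ P.S 1 :=
  sb_sub P h (Fin.strictMono_iff_lt_succ.2 fun i => by fin_cases i; exact h1)

theorem e3_mem (P : Sb X) {σ : Sx n X} (h : σ ∈ P.S n) {a b c : Fin (n + 1)} (h1 : a < b)
    (h2 : b < c) : e3 σ a b c ∈ P.S 2 :=
  sb_sub P h (Fin.strictMono_iff_lt_succ.2 fun i => by fin_cases i; exacts [h1, h2])

theorem e2_sub (σ : Sx n X) (v : Fin (l + 1) → Fin (n + 1)) (a b : Fin (l + 1)) :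
    e2 (sub σ v) a b = e2 σ (v a) (v b) := by
  rw [e2, Tp.sub_sub]; congr 1; funext t; fin_cases t <;> rfl




section cob

variable (k : Type) [CommRing k] {A : Type} [AddCommGroup A] [Module k A]

theorem cob_d1 (φ : Co A 1 X) (σ : Sx 2 X) : cob k φ σ = d1 (fun a b => φ (e2 σ a b)) 0 1 2 := by
  have h0 : Tp.fc σ 0 = e2 σ 1 2 := sub_congr σ fun t => by fin_cases t <;> rfl
  have h1 : Tp.fc σ 1 = e2 σ 0 2 := sub_congr σ fun t => by fin_cases t <;> rfl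
  have h2 : Tp.fc σ 2 = e2 σ 0 1 := sub_congr σ fun t => by fin_cases t <;> rfl
  simp [cob_apply, Fin.sum_univ_three, h0, h1, h2, d1, sub_eq_add_neg]

theorem cob_e3 (φ : Co A 1 X) (σ : Sx n X) (a b c : Fin (n + 1)) :
    cob k φ (e3 σ a b c) = d1 (fun a b => φ (e2 σ a b)) a b c := by
  simp only [cob_d1, d1, e2_sub]; rfl

theorem cob_d2 (φ : Co A 2 X) (σ : Sx 3 X) :
    cob k φ σ = d2 (fun a b c => φ (e3 σ a b c)) 0 1 2 3 := by
  have h0 : Tp.fc σ 0 = e3 σ 1 2 3 := sub_congr σ fun t => by fin_cases t <;> rfl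
  have h1 : Tp.fc σ 1 = e3 σ 0 2 3 := sub_congr σ fun t => by fin_cases t <;> rfl
  have h2 : Tp.fc σ 2 = e3 σ 0 1 3 := sub_congr σ fun t => by fin_cases t <;> rfl
  have h3 : Tp.fc σ 3 = e3 σ 0 1 2 := sub_congr σ fun t => by fin_cases t <;> rfl
  have e : (-1 : k) ^ 3 = -1 := by norm_num
  simp [cob_apply, Fin.sum_univ_four, h0, h1, h2, h3, d2, sub_eq_add_neg, e]

theorem cob_d3 (φ : Co A 3 X) (σ : Sx 4 X) :
    cob k φ σ = d3 (fun a b c d => φ (e4 σ a b c d)) 0 1 2 3 4 := by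
  have h0 : Tp.fc σ 0 = e4 σ 1 2 3 4 := sub_congr σ fun t => by fin_cases t <;> rfl
  have h1 : Tp.fc σ 1 = e4 σ 0 2 3 4 := sub_congr σ fun t => by fin_cases t <;> rfl
  have h2 : Tp.fc σ 2 = e4 σ 0 1 3 4 := sub_congr σ fun t => by fin_cases t <;> rfl
  have h3 : Tp.fc σ 3 = e4 σ 0 1 2 4 := sub_congr σ fun t => by fin_cases t <;> rfl
  have h4 : Tp.fc σ 4 = e4 σ 0 1 2 3 := sub_congr σ fun t => by fin_cases t <;> rfl
  have e : (-1 : k) ^ 3 = -1 := by norm_num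
  have e' : (-1 : k) ^ 4 = 1 := by norm_num
  simp [cob_apply, Fin.sum_univ_five, h0, h1, h2, h3, h4, d3, sub_eq_add_neg, e, e']

variable {k} {A' A'' : Type} [AddCommGroup A'] [Module k A'] [AddCommGroup A''] [Module k A'']
  (μ : A →ₗ[k] A' →ₗ[k] A'')

theorem cup11 (φ : Co A 1 X) (ψ : Co A' 1 X) (σ : Sx 2 X) :
    cup μ 2 φ ψ σ = μ (φ (e2 σ 0 1)) (ψ (e2 σ 1 2)) := by
  rw [cup, show fr 1 σ = e2 σ 0 1 from sub_congr σ fun t => by fin_cases t <;> rfl,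
    show Tp.bk 1 σ = e2 σ 1 2 from sub_congr σ fun t => by fin_cases t <;> rfl]

theorem cup12 (φ : Co A 1 X) (ψ : Co A' 2 X) (σ : Sx 3 X) :
    cup μ 3 φ ψ σ = μ (φ (e2 σ 0 1)) (ψ (e3 σ 1 2 3)) := by
  rw [cup, show fr 1 σ = e2 σ 0 1 from sub_congr σ fun t => by fin_cases t <;> rfl,
    show Tp.bk 2 σ = e3 σ 1 2 3 from sub_congr σ fun t => by fin_cases t <;> rfl]

theorem cup21 (φ : Co A 2 X) (ψ : Co A' 1 X) (σ : Sx 3 X) :
    cup μ 3 φ ψ σ = μ (φ (e3 σ 0 1 2)) (ψ (e2 σ 2 3)) := by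
  rw [cup, show fr 2 σ = e3 σ 0 1 2 from sub_congr σ fun t => by fin_cases t <;> rfl,
    show Tp.bk 1 σ = e2 σ 2 3 from sub_congr σ fun t => by fin_cases t <;> rfl]

theorem cup22 (φ : Co A 2 X) (ψ : Co A' 2 X) (σ : Sx 4 X) :
    cup μ 4 φ ψ σ = μ (φ (e3 σ 0 1 2)) (ψ (e3 σ 2 3 4)) := by
  rw [cup, show fr 2 σ = e3 σ 0 1 2 from sub_congr σ fun t => by fin_cases t <;> rfl,
    show Tp.bk 2 σ = e3 σ 2 3 4 from sub_congr σ fun t => by fin_cases t <;> rfl]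

end cob

section ring

variable {R : Type} [Ring R]

/-- the labels of the edges of a simplex -/
def gs (g : Sx 1 X → Rˣ) (σ : Sx n X) (a b : Fin (n + 1)) : Rˣ := g (e2 σ a b)

theorem gs_sub (g : Sx 1 X → Rˣ) (σ : Sx n X) (v : Fin (l + 1) → Fin (n + 1))
    (a b : Fin (l + 1)) : gs g (sub σ v) a b = gs g σ (v a) (v b) := by rw [gs, e2_sub, gs]

/-- curvature -/
def cur (g : Sx 1 X → Rˣ) : Co R 2 X := fun σ => fc (gs g σ) 0 1 2

theorem cur_e3 (g : Sx 1 X → Rˣ) (σ : Sx n X) (a b c : Fin (n + 1)) :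
    cur g (e3 σ a b c) = fc (gs g σ) a b c :=
  fc_congr (gs_sub _ _ _ _ _) (gs_sub _ _ _ _ _) (gs_sub _ _ _ _ _)

/-- difference of two connections -/
def dif (g' g : Sx 1 X → Rˣ) : Co R 1 X := fun σ => g' σ - g σ

/-- the vertices -/
abbrev e1 (σ : Sx n X) (a : Fin (n + 1)) : Sx 0 X := sub σ ![a]

/-- gauge transformation -/
def gag (γ : Sx 0 X → Rˣ) (g : Sx 1 X → Rˣ) : Sx 1 X → Rˣ :=
  fun σ => γ (e1 σ 0) * g σ * (γ (e1 σ 1))⁻¹

theorem e1_sub (σ : Sx n X) (v : Fin (l + 1) → Fin (n + 1)) (a : Fin (l + 1)) :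
    e1 (sub σ v) a = e1 σ (v a) := by
  rw [e1, Tp.sub_sub]; congr 1; funext t; fin_cases t; rfl





theorem gs_congr {P : Sb X} {g g' : Sx 1 X → Rˣ} (h : ∀ σ ∈ P.S 1, g σ = g' σ) {σ : Sx n X}
    (hσ : σ ∈ P.S n) {a b : Fin (n + 1)} (h1 : a < b) : gs g σ a b = gs g' σ a b :=
  h _ (e2_mem P hσ h1)

theorem cur_congr {P : Sb X} {g g' : Sx 1 X → Rˣ} (h : ∀ σ ∈ P.S 1, g σ = g' σ) {σ : Sx 2 X}
    (hσ : σ ∈ P.S 2) : cur g σ = cur g' σ :=
  fc_congr (gs_congr h hσ (by decide)) (gs_congr h hσ (by decide)) (gs_congr h hσ (by decide))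

end ring

variable {p : ℕ} [hpp : Fact p.Prime] {K O : Type} [CommRing K] [CommRing O] [Algebra K O]
  {G : Gr (Gm p) K O}

/-- connections -/
abbrev Cn (G : Gr (Gm p) K O) (X : Type) [TopologicalSpace X] : Type := Sx 1 X → (Tw G)ˣ

/-- the values on `P` lie in `I` -/
def CI (P : Sb X) (I : Ideal O) (φ : Co (Tw G) n X) : Prop := ∀ σ ∈ P.S n, In I (φ σ)

/-- the labels on `P` lie in `1 + m` -/
def CU (P : Sb X) {m : Ideal O} (hm : G.Id m) (g : Sx n X → (Tw G)ˣ) : Prop :=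
  ∀ σ ∈ P.S n, g σ ∈ U hm

/-- the symmetric pairing `q` -/
def lq (G : Gr (Gm p) K O) : Tw G →ₗ[K] Tw G →ₗ[K] O := (LinearMap.mul K (Tw G)).compr₂ (lam G)

/-- the pairing `B` -/
def lB (G : Gr (Gm p) K O) : Tw G →ₗ[K] Tw G →ₗ[K] O := lq G ∘ₗ D G

theorem lq_apply (x y : Tw G) : lq G x y = lam G (x * y) := rfl

theorem lB_apply (x y : Tw G) : lB G x y = lam G (D G x * y) := rfl

variable {P : Sb X} {m I J H : Ideal O} {hm : G.Id m} {g g' : Cn G X}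

theorem CU.gs (h : CU P hm g) {σ : Sx n X} (hσ : σ ∈ P.S n) (a b : Fin (n + 1))
    (h1 : a < b := by decide) : gs g σ a b ∈ U hm := h _ (e2_mem P hσ h1)

theorem CI.fc (h : CI P I (cur g)) {σ : Sx n X} (hσ : σ ∈ P.S n) (a b c : Fin (n + 1))
    (h1 : a < b := by decide) (h2 : b < c := by decide) : In I (fc (Cs.gs g σ) a b c) :=
  cur_e3 g σ a b c ▸ h _ (e3_mem P hσ h1 h2)

theorem CI.df (h : CI P H (dif g' g)) {σ : Sx n X} (hσ : σ ∈ P.S n) (a b : Fin (n + 1))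
    (h1 : a < b := by decide) : In H (df (Cs.gs g' σ) (Cs.gs g σ) a b) := h _ (e2_mem P hσ h1)

theorem CI.d1 (h : CI P J (cob K (dif g' g))) {σ : Sx n X} (hσ : σ ∈ P.S n) (a b c : Fin (n + 1))
    (h1 : a < b := by decide) (h2 : b < c := by decide) :
    In J (d1 (Cs.df (Cs.gs g' σ) (Cs.gs g σ)) a b c) := by
  have := h _ (e3_mem P hσ h1 h2)
  rwa [cob_e3] at this

theorem ev_ideal {φ : Co O n X} (h : ∀ σ ∈ P.S n, φ σ ∈ I) {c : Ch K n X} (hc : c ∈ P.ch K n) :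
    ev K φ c ∈ I := P.ev_mem φ (I.restrictScalars K) h hc

theorem CI.ev {φ : Co (Tw G) n X} (h : CI P I φ) {c : Ch K n X} (hc : c ∈ P.ch K n) :
    In I (ev K φ c) := P.ev_mem φ ((I.restrictScalars K).comap (o G).toLinearMap) h hc

/-- Bianchi -/
theorem cob_cur_mem (hI : G.Id I) (h : CU P hm g) (f : CI P I (cur g)) :
    CI P (m * I) (cob K (cur g)) := fun σ hσ => by
  rw [cob_d2]
  simp only [d2, cur_e3]
  exact d2_fc_mem hm hI (h.gs hσ 0 1) (h.gs hσ 2 3) (f.fc hσ 0 1 2) (f.fc hσ 1 2 3)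


theorem cur_sub_mem' (hH : G.Id H) (k : CI P H (dif g' g)) : CI P H (cur g' - cur g) :=
  fun _ hσ => fc_sub_mem' hH (k.df hσ 0 1) (k.df hσ 1 2) (k.df hσ 0 2)

variable [Fact ((p : O) = 0)]

/-- the Chern-Simons cochain -/
def CS (g : Cn G X) : Co O 3 X := fun σ => (td G).cs (gs g σ) 0 1 2 3

/-- its coboundary -/
def PP (g : Cn G X) : Co O 4 X := fun σ => (td G).P (gs g σ) 0 1 2 3 4

/-- boundary term of the variation, first form -/
def BE (g : Cn G X) (h : Co (Tw G) 1 X) : Co O 2 X :=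
  fun σ => (td G).be (gs g σ) (fun a b => h (e2 σ a b)) 0 1 2

/-- boundary term of the variation, second form -/
def BK (g' g : Cn G X) : Co O 2 X := fun σ => bk (gs g' σ) (gs g σ) 0 1 2


/-- boundary term of a derivative -/
def BD {γ : Gm p} {δ : Derivation K O O} (h : G.Dg γ δ) (g : Cn G X) : Co O 2 X :=
  fun σ => bD h (gs g σ) 0 1 2

theorem CS_e4 (g : Cn G X) (σ : Sx n X) (a b c d : Fin (n + 1)) :
    CS g (e4 σ a b c d) = (td G).cs (gs g σ) a b c d :=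
  (td G).cs_congr (gs_sub _ _ _ _ _) (gs_sub _ _ _ _ _) (gs_sub _ _ _ _ _) (gs_sub _ _ _ _ _)
    (gs_sub _ _ _ _ _)

theorem cob_CS (g : Cn G X) : cob K (CS g) = PP g := by
  funext σ
  rw [cob_d3, PP, ← TD.d3_cs]
  simp only [d3, CS_e4]



theorem CS_hg (g : Cn G X) (c : Ch K 3 X) : G.Hg (g0 p) (ev K (CS g) c) := by
  rw [Gr.Hg, map_ev]
  exact congrArg (fun φ => ev K φ c) (funext fun σ => cs_hg _ _ _ _ _)

theorem CS_mem (hI : G.Id I) (h : CU P hm g) (f : CI P I (cur g)) {c : Ch K 3 X}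
    (hc : c ∈ P.ch K 3) : ev K (CS g) c ∈ m * I :=
  ev_ideal (fun _ hσ => cs_mem hm hI (h.gs hσ 0 1) (f.fc hσ 1 2 3)) hc

theorem PP_mem (hI : G.Id I) (f : CI P I (cur g)) {c : Ch K 4 X} (hc : c ∈ P.ch K 4) :
    ev K (PP g) c ∈ I * I :=
  ev_ideal (fun _ hσ => P_mem hI (f.fc hσ 0 1 2) (f.fc hσ 2 3 4) (f.fc hσ 1 2 3) (f.fc hσ 0 3 4)
    (f.fc hσ 0 1 4)) hc

/-- Stokes -/
theorem CS_bd (g : Cn G X) (c : Ch K 4 X) : ev K (CS g) (bd K c) = ev K (PP g) c := by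
  rw [ev_bd, cob_CS]

theorem CS_bd_mem (hI : G.Id I) (f : CI P I (cur g)) {c : Ch K 4 X} (hc : c ∈ P.ch K 4) :
    ev K (CS g) (bd K c) ∈ I * I := CS_bd g c ▸ PP_mem hI f hc

theorem PP_sym (hI : G.Id I) (h : CU P hm g) (f : CI P I (cur g)) {c : Ch K 4 X}
    (hc : c ∈ P.ch K 4) : ev K (PP g) c - ev K (cup (lB G) 4 (cur g) (cur g)) c ∈ m * (I * I) := by
  rw [← ev_sub]
  refine ev_ideal (fun σ hσ => ?_) hc
  rw [Pi.sub_apply, cup22, cur_e3, cur_e3]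
  exact P_sym hm hI (h.gs hσ 0 1) (h.gs hσ 1 2) (h.gs hσ 0 4) (f.fc hσ 0 1 2) (f.fc hσ 2 3 4)
    (f.fc hσ 1 2 3) (f.fc hσ 0 3 4) (f.fc hσ 0 1 4)

theorem cob_BE (g : Cn G X) (h : Co (Tw G) 1 X) (σ : Sx 3 X) :
    cob K (BE g h) σ = d2 ((td G).be (gs g σ) fun a b => h (e2 σ a b)) 0 1 2 3 := by
  simp only [cob_d2, d2, BE, TD.be, gs_sub, e2_sub]; rfl

theorem cob_BK (g' g : Cn G X) (σ : Sx 3 X) :
    cob K (BK g' g) σ = d2 (bk (gs g' σ) (gs g σ)) 0 1 2 3 := by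
  simp only [cob_d2, d2, BK, bk, TD.be, TD.ka, df, fc, gs_sub]; rfl

/-- (V), first form; `I` contains both curvatures -/
theorem CS_var (hI : G.Id I) (hH : G.Id H) (h : CU P hm g) (h' : CU P hm g') (f : CI P I (cur g))
    (f' : CI P I (cur g')) (k : CI P H (dif g' g)) {c : Ch K 3 X} (hc : c ∈ P.ch K 3) :
    ev K (CS g') c - ev K (CS g) c + ev K (BE g (dif g' g)) (bd K c)
      - (ev K (cup (lB G) 3 (dif g' g) (cur g')) c + ev K (cup (lB G) 3 (cur g) (dif g' g)) c) ∈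
      m * (H * (I ⊔ H)) := by
  rw [ev_bd, ← ev_sub, ← ev_add, ← ev_add, ← ev_sub]
  refine ev_ideal (fun σ hσ => ?_) hc
  simp only [Pi.sub_apply, Pi.add_apply, cob_BE, cup12, cup21, cur_e3]
  exact var_mem hm hI hH (h.gs hσ 0 1) (h.gs hσ 1 2) (h.gs hσ 0 3) (h'.gs hσ 0 3) (f.fc hσ 0 1 2)
    (f'.fc hσ 1 2 3) (f.fc hσ 0 1 3) (f.fc hσ 0 2 3) (k.df hσ 0 1) (k.df hσ 1 2) (k.df hσ 2 3)
    (k.df hσ 0 3)

/-- (V), second form -/
theorem CS_var_q (hI : G.Id I) (hH : G.Id H) (hJ : G.Id J) (hHm : H ≤ m) (h : CU P hm g)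
    (f : CI P I (cur g)) (k : CI P H (dif g' g)) (j : CI P J (cob K (dif g' g))) {c : Ch K 3 X}
    (hc : c ∈ P.ch K 3) :
    ev K (CS g') c - ev K (CS g) c + ev K (BK g' g) (bd K c)
      - ev K (cup (lq G) 3 (dif g' g) (cur g)) c ∈ m * (H * (I ⊔ H)) ⊔ J * (I ⊔ H) := by
  rw [ev_bd, ← ev_sub, ← ev_add, ← ev_sub]
  refine ev_ideal (fun σ hσ => ?_) hc
  simp only [Pi.sub_apply, Pi.add_apply, cob_BK, cup12, cur_e3]
  exact var_q hm hI hH hJ hHm (h.gs hσ 0 1) (h.gs hσ 1 2) (h.gs hσ 0 3) (h.gs hσ 2 3)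
    (f.fc hσ 0 1 2) (f.fc hσ 1 2 3) (f.fc hσ 0 1 3) (f.fc hσ 0 2 3) (k.df hσ 0 1) (k.df hσ 1 2)
    (k.df hσ 2 3) (k.df hσ 0 3) (k.df hσ 1 3) (j.d1 hσ 0 1 3) (j.d1 hσ 0 2 3) (j.d1 hσ 1 2 3)

theorem BE_mem (hH : G.Id H) (h : CU P hm g) {φ : Co (Tw G) 1 X} (k : CI P H φ) {c : Ch K 2 X}
    (hc : c ∈ P.ch K 2) : ev K (BE g φ) c ∈ m * H :=
  ev_ideal (fun _ hσ => be_mem hm hH (h.gs hσ 0 1) (k _ (e2_mem P hσ (by decide)))) hc






theorem cob_BD {γ : Gm p} {δ : Derivation K O O} (hδ : G.Dg γ δ) (g : Cn G X) (σ : Sx 3 X) :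
    cob K (BD hδ g) σ = d2 (bD hδ (gs g σ)) 0 1 2 3 := by
  have : ∀ a b c, BD hδ g (e3 σ a b c) = bD hδ (gs g σ) a b c := fun a b c =>
    bD_congr hδ (g := gs g (e3 σ a b c)) (k := gs g σ) (a := 0) (b := 1) (c := 2) (a' := a)
      (b' := b) (c' := c) (gs_sub _ _ _ _ _) (gs_sub _ _ _ _ _) (gs_sub _ _ _ _ _)
  rw [cob_d2, d2, this, this, this, this, d2]

theorem CS_der_pt {γ : Gm p} {δ : Derivation K O O} (hδ : G.Dg γ δ) (hI : G.Id I) (h : CU P hm g)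
    (f : CI P I (cur g)) {κ : Co K 1 X} (hκ : κ ∈ P.Z K K 1)
    (k : ∀ σ ∈ P.S 1, δ (o G (g σ)) - algebraMap K O (κ σ) ∈ m) {σ : Sx 3 X} (hσ : σ ∈ P.S 3) :
    δ (CS g σ) + cob K (BD hδ g) σ - sg γ (g0 p - γ) •
      G.pr (g0 p - γ) (o G (cup (LinearMap.lsmul K (Tw G)) 3 κ (cur g) σ)) ∈ m * I := by
  have j : ∀ a b c : Fin 4, a < b → b < c → d1 (fun a b => κ (e2 σ a b)) a b c = 0 :=
    fun a b c h1 h2 => (cob_e3 K κ σ a b c).symm.trans (hκ _ (e3_mem P hσ h1 h2))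
  have lt : ∀ x ∈ [((0 : Fin 4), (1 : Fin 4)), (1, 2), (2, 3), (0, 2), (0, 3), (1, 3)],
      x.1 < x.2 := by decide
  have := der_cs hδ hm hI (κ := fun a b => κ (e2 σ a b)) (h.gs hσ 0 1) (h.gs hσ 1 2) (h.gs hσ 0 3)
    (h.gs hσ 2 3) (f.fc hσ 0 1 2) (f.fc hσ 1 2 3) (f.fc hσ 0 1 3) (f.fc hσ 0 2 3)
    (fun x hx => k _ (e2_mem P hσ (lt x hx))) (j 0 1 3 (by decide) (by decide))
    (j 0 2 3 (by decide) (by decide)) (j 1 2 3 (by decide) (by decide))
  rwa [cob_BD, cup12, cur_e3, LinearMap.lsmul_apply, map_smul, map_smul]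

/-- the derivative of the potential -/
theorem CS_der {γ : Gm p} {δ : Derivation K O O} (hδ : G.Dg γ δ) (hI : G.Id I) (h : CU P hm g)
    (f : CI P I (cur g)) {κ : Co K 1 X} (hκ : κ ∈ P.Z K K 1)
    (k : ∀ σ ∈ P.S 1, δ (o G (g σ)) - algebraMap K O (κ σ) ∈ m) {c : Ch K 3 X}
    (hc : c ∈ P.ch K 3) :
    δ (ev K (CS g) c) + ev K (BD hδ g) (bd K c) - sg γ (g0 p - γ) •
      G.pr (g0 p - γ) (o G (ev K (cup (LinearMap.lsmul K (Tw G)) 3 κ (cur g)) c)) ∈ m * I := by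
  have q1 : δ (ev K (CS g) c) = ev K (fun σ => δ (CS g σ)) c := map_ev δ.toLinearMap _ c
  have q2 : sg γ (g0 p - γ) •
      G.pr (g0 p - γ) (o G (ev K (cup (LinearMap.lsmul K (Tw G)) 3 κ (cur g)) c)) =
      ev K (fun σ => sg γ (g0 p - γ) •
        G.pr (g0 p - γ) (o G (cup (LinearMap.lsmul K (Tw G)) 3 κ (cur g) σ))) c :=
    map_ev (sg γ (g0 p - γ) • (G.pr (g0 p - γ) ∘ₗ (o G).toLinearMap)) _ c
  rw [q1, q2, ev_bd, ← ev_add, ← ev_sub]
  exact ev_ideal (fun σ hσ => CS_der_pt hδ hI h f hκ k hσ) hc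

theorem BD_zero {γ : Gm p} {δ : Derivation K O O} (hδ : G.Dg γ δ)
    (k : ∀ σ ∈ P.S 1, δ (o G (g σ)) = 0) {c : Ch K 2 X} (hc : c ∈ P.ch K 2) :
    ev K (BD hδ g) c = 0 :=
  P.ev_eq_zero (fun _ hσ => bD_zero hδ (k _ (e2_mem P hσ (by decide)))
    (k _ (e2_mem P hσ (by decide)))) hc

section map

variable {O' : Type} [CommRing O'] [Algebra K O'] [Fact ((p : O') = 0)] {G' : Gr (Gm p) K O'}
  {φ : O →ₐ[K] O'}

/-- substitution in a connection -/
def mp (h : G.Hom G' φ) (g : Sx n X → (Tw G)ˣ) : Sx n X → (Tw G')ˣ := fun σ => um h (g σ)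

omit [Fact ((p : O) = 0)] [Fact ((p : O') = 0)] in
theorem cur_mp (h : G.Hom G' φ) (g : Cn G X) (σ : Sx 2 X) :
    cur (mp h g) σ = Tw.map h (cur g σ) := fc_um h (gs g σ) 0 1 2

theorem CS_mp (h : G.Hom G' φ) (g : Cn G X) (c : Ch K 3 X) :
    ev K (CS (mp h g)) c = φ (ev K (CS g) c) := by
  rw [show φ (ev K (CS g) c) = _ from map_ev φ.toLinearMap _ c]
  exact congrArg (fun φ => ev K φ c) (funext fun σ => cs_um h (gs g σ) 0 1 2 3)

omit [Fact ((p : O) = 0)] [Fact ((p : O') = 0)] in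
theorem CU.mp (h : G.Hom G' φ) {m' : Ideal O'} {hm' : G'.Id m'} (hφ : ∀ x ∈ m, φ x ∈ m')
    {g : Sx n X → (Tw G)ˣ} (hg : CU P hm g) : CU P hm' (mp h g) :=
  fun σ hσ => um_mem h hm hm' hφ (hg σ hσ)

omit [Fact ((p : O) = 0)] [Fact ((p : O') = 0)] in
theorem CI.mp (h : G.Hom G' φ) {I' : Ideal O'} (hφ : ∀ x ∈ I, φ x ∈ I') (f : CI P I (cur g)) :
    CI P I' (cur (Cs.mp h g)) := fun σ hσ => by rw [cur_mp]; exact hφ _ (f σ hσ)

end map

end Crest.Agent.N255.Cs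

end
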